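import Vale.Agent.P359.Gap.Bottom.Defs
import Mathlib.LinearAlgebra.Matrix.Kronecker

/-!
# P359 gap, module Bottom: symmetry of the partial traces of a bottom family

The traces are symmetric, commute with total lowering and conserve the total level; the trace over
all particles is a scalar.
-/

namespace Vale.Agent.P359.Gap

open Matrix Finset Function Kronecker

noncomputable section

variable {Q n : ℕ}

/-! ### Reindexing -/

lemma sum_flip_site (l : Fin n) (f : (Fin n → UI Q) → UI Q → ℝ) :
    ∑ x, ∑ b, f x b = ∑ x, ∑ b, f (update x l b) (x l) := by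
  rw [← Fintype.sum_prod_type', ← Fintype.sum_prod_type']
  have hinv : Involutive fun p : (Fin n → UI Q) × UI Q => (update p.1 l p.2, p.1 l) := fun p => by
    ext <;> simp
  exact (Equiv.sum_comp (hinv.toPerm _) fun p : (Fin n → UI Q) × UI Q => f p.1 p.2).symm

lemma sum_move_site (k : Fin n) (a b : UI Q) (H : (Fin n → UI Q) → ℝ) :
    (∑ x : Fin n → UI Q, if x k = a then H (update x k b) else 0) =
      ∑ x : Fin n → UI Q, if x k = b then H x else 0 := by
  rw [← Finset.sum_filter, ← Finset.sum_filter]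
  refine Finset.sum_bij' (fun x _ => update x k b) (fun x _ => update x k a)
    (fun x _ => by simp) (fun x _ => by simp) (fun x hx => ?_) (fun x hx => ?_) fun x _ => rfl
  · simp only [Finset.mem_filter] at hx
    simp [← hx.2]
  · simp only [Finset.mem_filter] at hx
    simp [← hx.2]

/-- A site that is not traced out drops from the commutator. -/
lemma other_site (l : Fin n) (w u t : (Fin n → UI Q) → ℝ)
    (φ : (Fin n → UI Q) → Fin n → UI Q) (hw : ∀ x b, w (update x l b) = w x)
    (hl : ∀ x, φ x l = x l) (hφ : ∀ x b, φ (update x l b) = update (φ x) l b)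
    (p : Matrix (UI Q) (UI Q) ℝ) :
    ∑ x, w x * ((∑ b, p (x l) b * u (update x l b)) * t (φ x)) =
      ∑ x, w x * (u x * ∑ b, p b (φ x l) * t (update (φ x) l b)) := by
  simp only [Finset.mul_sum, Finset.sum_mul]
  rw [sum_flip_site l]
  refine Finset.sum_congr rfl fun x _ => Finset.sum_congr rfl fun b _ => ?_
  simp only [update_self, update_idem, update_eq_self, hw, hl, hφ]
  ring

/-! ### Two spins -/

lemma down2_eq (A B : ℕ) : down2 A B = down A ⊗ₖ 1 + 1 ⊗ₖ down B := by
  ext x y
  simp [down2, one_apply]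

lemma down3_eq (Q : ℕ) : down3 Q = down (2 * Q - 2) ⊗ₖ 1 + 1 ⊗ₖ down2 Q Q := by
  ext x y
  simp [down3, one_apply]

lemma two_sum_left {α β : Type} [Fintype α] [Fintype β] [DecidableEq α] [DecidableEq β]
    (P : Matrix α α ℝ) (p : Matrix β β ℝ) (i : α × β) (F : α × β → ℝ) :
    ∑ w, (P ⊗ₖ 1 + 1 ⊗ₖ p : Matrix (α × β) (α × β) ℝ) i w * F w =
      (∑ C, P i.1 C * F (C, i.2)) + ∑ b, p i.2 b * F (i.1, b) := by
  simp [add_mul, Finset.sum_add_distrib, Fintype.sum_prod_type, one_apply]

lemma two_sum_right {α β : Type} [Fintype α] [Fintype β] [DecidableEq α] [DecidableEq β]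
    (P : Matrix α α ℝ) (p : Matrix β β ℝ) (j : α × β) (F : α × β → ℝ) :
    ∑ w, F w * (P ⊗ₖ 1 + 1 ⊗ₖ p : Matrix (α × β) (α × β) ℝ) w j =
      (∑ C, F (C, j.2) * P C j.1) + ∑ b, F (j.1, b) * p b j.2 := by
  simp [mul_add, Finset.sum_add_distrib, Fintype.sum_prod_type, one_apply]

/-! ### Traces of two states -/

/-- The trace over all particles of two states. -/
def T0 (u t : St Q n) : Matrix (CI Q) (CI Q) ℝ := fun C C' => ∑ x, u C x * t C' x

/-- The trace over all particles but one of two states. -/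
def T1 (u t : St Q n) : Matrix (CI Q × UI Q) (CI Q × UI Q) ℝ :=
  fun i j => ∑ k, ∑ x : Fin n → UI Q,
    if x k = i.2 then u i.1 x * t j.1 (update x k j.2) else 0

/-- The trace over all particles but an ordered pair of two states. -/
def T2 (u t : St Q n) : Matrix (CI Q × UI Q × UI Q) (CI Q × UI Q × UI Q) ℝ :=
  fun i j => ∑ k, ∑ l, if k ≠ l then
    ∑ x : Fin n → UI Q, if x k = i.2.1 ∧ x l = i.2.2 then
      u i.1 x * t j.1 (update (update x k j.2.1) l j.2.2) else 0
    else 0

lemma T0_step (P : Matrix (CI Q) (CI Q) ℝ) (p : Matrix (UI Q) (UI Q) ℝ) (u t : St Q n) :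
    T0 (opL P p u) t - T0 u (opL Pᵀ pᵀ t) = P * T0 u t - T0 u t * P := by
  ext C C'
  have h : ∀ l : Fin n,
      ∑ x, (∑ b, p (x l) b * u C (update x l b)) * t C' x =
        ∑ x, u C x * ∑ b, pᵀ (x l) b * t C' (update x l b) := fun l => by
    simpa using other_site l (fun _ => 1) (u C) (t C') id (fun _ _ => rfl) (fun _ => rfl)
      (fun _ _ => rfl) p
  have e1 : ∑ x, (∑ E, P C E * u E x) * t C' x = ∑ E, P C E * ∑ x, u E x * t C' x := by
    simp only [Finset.sum_mul, Finset.mul_sum]
    rw [Finset.sum_comm]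
    exact Finset.sum_congr rfl fun _ _ => Finset.sum_congr rfl fun _ _ => by ring
  have e2 : ∑ x, u C x * (∑ E, Pᵀ C' E * t E x) = ∑ E, (∑ x, u C x * t E x) * P E C' := by
    simp only [Finset.sum_mul, Finset.mul_sum, transpose_apply]
    rw [Finset.sum_comm]
    exact Finset.sum_congr rfl fun _ _ => Finset.sum_congr rfl fun _ _ => by ring
  have e3 : ∑ x, (∑ l, ∑ b, p (x l) b * u C (update x l b)) * t C' x =
      ∑ x, u C x * ∑ l, ∑ b, pᵀ (x l) b * t C' (update x l b) := by
    rw [Finset.sum_congr rfl fun x _ => Finset.sum_mul _ _ _,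
      Finset.sum_congr rfl fun x _ => Finset.mul_sum _ _ _, Finset.sum_comm,
      Finset.sum_congr rfl fun l _ => h l, Finset.sum_comm]
  show (∑ x, opL P p u C x * t C' x) - (∑ x, u C x * opL Pᵀ pᵀ t C' x) =
    (P * T0 u t) C C' - (T0 u t * P) C C'
  rw [Matrix.mul_apply, Matrix.mul_apply]
  simp only [opL, T0, add_mul, mul_add, Finset.sum_add_distrib]
  linarith

lemma T1_step (P : Matrix (CI Q) (CI Q) ℝ) (p : Matrix (UI Q) (UI Q) ℝ) (u t : St Q n) :
    T1 (opL P p u) t - T1 u (opL Pᵀ pᵀ t) =
      (P ⊗ₖ 1 + 1 ⊗ₖ p) * T1 u t - T1 u t * (P ⊗ₖ 1 + 1 ⊗ₖ p) := by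
  ext i j
  obtain ⟨C, a⟩ := i
  obtain ⟨C', a'⟩ := j
  have key : ∀ k : Fin n,
      (∑ x : Fin n → UI Q, if x k = a then opL P p u C x * t C' (update x k a') else 0) -
        (∑ x : Fin n → UI Q,
          if x k = a then u C x * opL Pᵀ pᵀ t C' (update x k a') else 0) =
      ((∑ D, P C D * ∑ x : Fin n → UI Q, if x k = a then u D x * t C' (update x k a') else 0) +
        ∑ b, p a b * ∑ x : Fin n → UI Q, if x k = b then u C x * t C' (update x k a') else 0) -
      ((∑ D, (∑ x : Fin n → UI Q, if x k = a then u C x * t D (update x k a') else 0) * P D C') +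
        ∑ b, (∑ x : Fin n → UI Q, if x k = a then u C x * t C' (update x k b) else 0) * p b a') := by
    intro k
    set w : (Fin n → UI Q) → ℝ := fun x => if x k = a then 1 else 0 with hw
    set φ : (Fin n → UI Q) → Fin n → UI Q := fun x => update x k a' with hφ
    have hwm : ∀ x (z : ℝ), (if x k = a then z else 0) = w x * z := fun x z => by
      simp only [hw]; split_ifs <;> simp
    set L : Fin n → ℝ :=
      fun l => ∑ x, w x * ((∑ b, p (x l) b * u C (update x l b)) * t C' (φ x)) with hL
    set R : Fin n → ℝ :=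
      fun l => ∑ x, w x * (u C x * ∑ b, p b (φ x l) * t C' (update (φ x) l b)) with hR
    have h0 : ∀ l, l ≠ k → L l = R l := fun l hl =>
      other_site l w (u C) (t C') φ
        (fun x b => by simp [hw, update_of_ne (Ne.symm hl)])
        (fun x => by simp [hφ, update_of_ne hl])
        (fun x b => by simp only [hφ]; rw [update_comm hl]) p
    have hsum : ∑ l, L l - ∑ l, R l = L k - R k := by
      rw [← Finset.sum_sub_distrib]
      exact Finset.sum_eq_single k (fun l _ hl => by rw [h0 l hl, sub_self]) (by simp)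
    have eL : L k =
        ∑ b, p a b * ∑ x : Fin n → UI Q, if x k = b then u C x * t C' (update x k a') else 0 := by
      simp only [hL, ← hwm]
      calc _ = ∑ x : Fin n → UI Q, ∑ b, p a b *
            (if x k = a then u C (update x k b) * t C' (update x k a') else 0) := by
            refine Finset.sum_congr rfl fun x _ => ?_
            by_cases h : x k = a <;> simp [h, hφ, Finset.sum_mul, mul_assoc]
        _ = ∑ b, p a b * ∑ x : Fin n → UI Q,
            (if x k = a then u C (update x k b) * t C' (update x k a') else 0) := by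
            rw [Finset.sum_comm]; simp only [Finset.mul_sum]
        _ = _ := by
            refine Finset.sum_congr rfl fun b _ => congrArg _ ?_
            simpa using sum_move_site k a b fun x => u C x * t C' (update x k a')
    have eR : R k =
        ∑ b, (∑ x : Fin n → UI Q, if x k = a then u C x * t C' (update x k b) else 0) * p b a' := by
      simp only [hR, hφ, update_self, update_idem, Finset.sum_mul, Finset.mul_sum]
      rw [Finset.sum_comm]
      refine Finset.sum_congr rfl fun b _ => Finset.sum_congr rfl fun x _ => ?_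
      simp only [hw]; split_ifs <;> ring
    have eA : (∑ x : Fin n → UI Q, if x k = a then opL P p u C x * t C' (update x k a') else 0) =
        (∑ D, P C D * ∑ x : Fin n → UI Q, if x k = a then u D x * t C' (update x k a') else 0) +
          ∑ l, L l := by
      simp only [hwm, opL, hL, hφ, add_mul, mul_add, Finset.sum_mul, Finset.mul_sum,
        Finset.sum_add_distrib]
      congr 1
      · rw [Finset.sum_comm]
        exact Finset.sum_congr rfl fun _ _ => Finset.sum_congr rfl fun _ _ => by ring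
      · rw [Finset.sum_comm]
    have eB : (∑ x : Fin n → UI Q,
        if x k = a then u C x * opL Pᵀ pᵀ t C' (update x k a') else 0) =
        (∑ D, (∑ x : Fin n → UI Q, if x k = a then u C x * t D (update x k a') else 0) * P D C') +
          ∑ l, R l := by
      simp only [hwm, opL, hR, hφ, transpose_apply, mul_add, Finset.sum_mul, Finset.mul_sum,
        Finset.sum_add_distrib]
      congr 1
      · rw [Finset.sum_comm]
        exact Finset.sum_congr rfl fun _ _ => Finset.sum_congr rfl fun _ _ => by ring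
      · rw [Finset.sum_comm]
    rw [eA, eB, ← eL, ← eR]
    linarith
  simp only [Matrix.sub_apply, Matrix.mul_apply, two_sum_left, two_sum_right]
  simp only [T1, Finset.mul_sum, Finset.sum_mul]
  simp only [Finset.mul_sum, Finset.sum_mul] at key
  rw [← Finset.sum_sub_distrib, Finset.sum_congr rfl fun k _ => key k]
  simp only [Finset.sum_add_distrib, Finset.sum_sub_distrib]
  congr 2 <;> exact Finset.sum_comm

lemma T2_step (P : Matrix (CI Q) (CI Q) ℝ) (p : Matrix (UI Q) (UI Q) ℝ) (u t : St Q n) :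
    T2 (opL P p u) t - T2 u (opL Pᵀ pᵀ t) =
      (P ⊗ₖ 1 + 1 ⊗ₖ (p ⊗ₖ 1 + 1 ⊗ₖ p)) * T2 u t -
        T2 u t * (P ⊗ₖ 1 + 1 ⊗ₖ (p ⊗ₖ 1 + 1 ⊗ₖ p)) := by
  ext i j
  obtain ⟨C, a₀⟩ := i
  obtain ⟨a, b⟩ := a₀
  obtain ⟨C', a₁⟩ := j
  obtain ⟨a', b'⟩ := a₁
  have key : ∀ k l : Fin n, k ≠ l →
      let S : CI Q → UI Q → UI Q → CI Q → UI Q → UI Q → ℝ := fun D e f D' e' f' =>
        ∑ x : Fin n → UI Q,
          if x k = e ∧ x l = f then u D x * t D' (update (update x k e') l f') else 0
      (∑ x : Fin n → UI Q, if x k = a ∧ x l = b then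
          opL P p u C x * t C' (update (update x k a') l b') else 0) -
        (∑ x : Fin n → UI Q, if x k = a ∧ x l = b then
          u C x * opL Pᵀ pᵀ t C' (update (update x k a') l b') else 0) =
      ((∑ D, P C D * S D a b C' a' b') +
        ((∑ e, p a e * S C e b C' a' b') + ∑ f, p b f * S C a f C' a' b')) -
      ((∑ D, S C a b D a' b' * P D C') +
        ((∑ e, S C a b C' e b' * p e a') + ∑ f, S C a b C' a' f * p f b')) := by
    intro k l hkl S
    set w : (Fin n → UI Q) → ℝ := fun x => if x k = a ∧ x l = b then 1 else 0 with hw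
    set φ : (Fin n → UI Q) → Fin n → UI Q :=
      fun x => update (update x k a') l b' with hφ
    have hwm : ∀ x (z : ℝ), (if x k = a ∧ x l = b then z else 0) = w x * z := fun x z => by
      simp only [hw]; split_ifs <;> simp
    set L : Fin n → ℝ :=
      fun m => ∑ x, w x * ((∑ e, p (x m) e * u C (update x m e)) * t C' (φ x)) with hL
    set R : Fin n → ℝ :=
      fun m => ∑ x, w x * (u C x * ∑ e, p e (φ x m) * t C' (update (φ x) m e)) with hR
    have h0 : ∀ m, m ≠ k ∧ m ≠ l → L m = R m := fun m hm =>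
      other_site m w (u C) (t C') φ
        (fun x e => by simp [hw, update_of_ne (Ne.symm hm.1), update_of_ne (Ne.symm hm.2)])
        (fun x => by simp [hφ, update_of_ne hm.1, update_of_ne hm.2])
        (fun x e => by simp only [hφ]; rw [update_comm hm.1, update_comm hm.2]) p
    have hsum : ∑ m, L m - ∑ m, R m = (L k - R k) + (L l - R l) := by
      rw [← Finset.sum_sub_distrib]
      exact Finset.sum_eq_add k l hkl (fun m _ hm => by rw [h0 m hm, sub_self]) (by simp) (by simp)
    have hk' : ∀ x (e : UI Q), update x k e l = x l := fun (x : Fin n → UI Q) e => update_of_ne (Ne.symm hkl) _ _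
    have hl' : ∀ x (e : UI Q), update x l e k = x k := fun (x : Fin n → UI Q) e => update_of_ne hkl _ _
    have eLk : L k = ∑ e, p a e * S C e b C' a' b' := by
      simp only [hL, ← hwm]
      calc _ = ∑ x : Fin n → UI Q, ∑ e, p a e * (if x k = a then
              (if x l = b then u C (update x k e) * t C' (φ x) else 0) else 0) := by
            refine Finset.sum_congr rfl fun x _ => ?_
            by_cases h : x k = a <;> by_cases h' : x l = b <;>
              simp [h, h', Finset.sum_mul, mul_assoc]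
        _ = ∑ e, p a e * ∑ x : Fin n → UI Q, (if x k = a then
              (if x l = b then u C (update x k e) * t C' (φ x) else 0) else 0) := by
            rw [Finset.sum_comm]; simp only [Finset.mul_sum]
        _ = _ := by
            refine Finset.sum_congr rfl fun e _ => congrArg _ ?_
            have h := sum_move_site k a e fun x => if x l = b then u C x * t C' (φ x) else 0
            simpa [hφ, hk', S, ← ite_and] using h
    have eLl : L l = ∑ f, p b f * S C a f C' a' b' := by
      simp only [hL, ← hwm]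
      calc _ = ∑ x : Fin n → UI Q, ∑ f, p b f * (if x l = b then
              (if x k = a then u C (update x l f) * t C' (φ x) else 0) else 0) := by
            refine Finset.sum_congr rfl fun x _ => ?_
            by_cases h : x k = a <;> by_cases h' : x l = b <;>
              simp [h, h', Finset.sum_mul, mul_assoc]
        _ = ∑ f, p b f * ∑ x : Fin n → UI Q, (if x l = b then
              (if x k = a then u C (update x l f) * t C' (φ x) else 0) else 0) := by
            rw [Finset.sum_comm]; simp only [Finset.mul_sum]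
        _ = _ := by
            refine Finset.sum_congr rfl fun f _ => congrArg _ ?_
            have h := sum_move_site l b f fun x => if x k = a then u C x * t C' (φ x) else 0
            simpa [hφ, hl', update_comm hkl, S, ← ite_and, and_comm] using h
    have eRk : R k = ∑ e, S C a b C' e b' * p e a' := by
      simp only [hR, hφ, S, hl', update_self, Finset.sum_mul, Finset.mul_sum]
      rw [Finset.sum_comm]
      refine Finset.sum_congr rfl fun e _ => Finset.sum_congr rfl fun x _ => ?_
      rw [update_comm hkl.symm, update_idem]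
      simp only [hw]
      split_ifs <;> ring
    have eRl : R l = ∑ f, S C a b C' a' f * p f b' := by
      simp only [hR, hφ, S, update_self, update_idem, Finset.sum_mul, Finset.mul_sum]
      rw [Finset.sum_comm]
      refine Finset.sum_congr rfl fun e _ => Finset.sum_congr rfl fun x _ => ?_
      simp only [hw]; split_ifs <;> ring
    have eA : (∑ x : Fin n → UI Q, if x k = a ∧ x l = b then
          opL P p u C x * t C' (update (update x k a') l b') else 0) =
        (∑ D, P C D * S D a b C' a' b') + ∑ m, L m := by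
      simp only [S, hwm, opL, hL, hφ, add_mul, mul_add, Finset.sum_mul, Finset.mul_sum,
        Finset.sum_add_distrib]
      congr 1
      · rw [Finset.sum_comm]
        exact Finset.sum_congr rfl fun _ _ => Finset.sum_congr rfl fun _ _ => by ring
      · rw [Finset.sum_comm]
    have eB : (∑ x : Fin n → UI Q, if x k = a ∧ x l = b then
          u C x * opL Pᵀ pᵀ t C' (update (update x k a') l b') else 0) =
        (∑ D, S C a b D a' b' * P D C') + ∑ m, R m := by
      simp only [S, hwm, opL, hR, hφ, transpose_apply, mul_add, Finset.sum_mul, Finset.mul_sum,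
        Finset.sum_add_distrib]
      congr 1
      · rw [Finset.sum_comm]
        exact Finset.sum_congr rfl fun _ _ => Finset.sum_congr rfl fun _ _ => by ring
      · rw [Finset.sum_comm]
    rw [eA, eB, ← eLk, ← eLl, ← eRk, ← eRl]
    linarith
  have push : ∀ {ι : Type} [Fintype ι] (c : ι → ℝ) (F : ι → Fin n → Fin n → ℝ),
      ∑ z, c z * ∑ k, ∑ l, (if k ≠ l then F z k l else 0) =
        ∑ k, ∑ l, if k ≠ l then ∑ z, c z * F z k l else 0 := by
    intro ι _ c F
    simp only [Finset.mul_sum, mul_ite, mul_zero]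
    rw [Finset.sum_comm]
    refine Finset.sum_congr rfl fun k _ => ?_
    rw [Finset.sum_comm]
    exact Finset.sum_congr rfl fun l _ => by split_ifs <;> simp
  have pull : ∀ {ι : Type} [Fintype ι] (c : ι → ℝ) (F : ι → Fin n → Fin n → ℝ),
      ∑ z, (∑ k, ∑ l, (if k ≠ l then F z k l else 0)) * c z =
        ∑ k, ∑ l, if k ≠ l then ∑ z, F z k l * c z else 0 := by
    intro ι _ c F
    simp only [mul_comm _ (c _), push]
  simp only [Matrix.sub_apply, Matrix.mul_apply, two_sum_left, two_sum_right]
  simp only [T2, push, pull, ← Finset.sum_add_distrib, ← Finset.sum_sub_distrib]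
  refine Finset.sum_congr rfl fun k _ => Finset.sum_congr rfl fun l _ => ?_
  by_cases h : k = l
  · simp [h]
  · simp only [ne_eq, h, not_false_eq_true, if_true]
    exact key k l h

/-! ### A bottom family -/

namespace Data

variable (D : Data Q n)

lemma rho_comm (C C' : CI Q) (x y : Fin n → UI Q) :
    ∑ r, opL (down (2 * Q - 2)) (down Q) (D.v r) C x * D.v r C' y =
      ∑ r, D.v r C x * opL (down (2 * Q - 2))ᵀ (down Q)ᵀ (D.v r) C' y := by
  change ∑ r, opF (D.v r) C x * D.v r C' y = ∑ r, D.v r C x * opE (D.v r) C' y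
  simp only [D.lowers, D.raises, Finset.sum_apply, Pi.smul_apply, smul_eq_mul, Finset.sum_mul,
    Finset.mul_sum]
  rw [Finset.sum_comm]
  exact Finset.sum_congr rfl fun _ _ => Finset.sum_congr rfl fun _ _ => by ring

lemma m0_sum : D.m0 = ∑ r, T0 (D.v r) (D.v r) := by
  ext C C'
  simp [m0, T0, Matrix.sum_apply]

lemma m1_sum : D.m1 = ∑ r, T1 (D.v r) (D.v r) := by
  ext i j
  simp [m1, T1, Matrix.sum_apply]

lemma m2_sum : D.m2 = ∑ r, T2 (D.v r) (D.v r) := by
  ext i j
  simp [m2, T2, Matrix.sum_apply]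

lemma m0_comm : down (2 * Q - 2) * D.m0 = D.m0 * down (2 * Q - 2) := by
  rw [m0_sum, Finset.mul_sum, Finset.sum_mul, ← sub_eq_zero, ← Finset.sum_sub_distrib]
  rw [Finset.sum_congr rfl fun r _ => (T0_step _ (down Q) (D.v r) (D.v r)).symm]
  ext C C'
  simp only [Matrix.sum_apply, Matrix.sub_apply, Matrix.zero_apply, Finset.sum_sub_distrib, T0]
  rw [Finset.sum_comm, Finset.sum_congr rfl fun x _ => D.rho_comm C C' x x, Finset.sum_comm,
    sub_eq_zero]

lemma m1_comm : down2 (2 * Q - 2) Q * D.m1 = D.m1 * down2 (2 * Q - 2) Q := by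
  rw [down2_eq, m1_sum, Finset.mul_sum, Finset.sum_mul, ← sub_eq_zero, ← Finset.sum_sub_distrib]
  rw [Finset.sum_congr rfl fun r _ => (T1_step _ (down Q) (D.v r) (D.v r)).symm]
  ext i j
  simp only [Matrix.sum_apply, Matrix.sub_apply, Matrix.zero_apply, Finset.sum_sub_distrib, T1]
  rw [sub_eq_zero, Finset.sum_comm]
  conv_rhs => rw [Finset.sum_comm]
  refine Finset.sum_congr rfl fun k _ => ?_
  rw [Finset.sum_comm]
  conv_rhs => rw [Finset.sum_comm]
  refine Finset.sum_congr rfl fun x _ => ?_
  by_cases h : x k = i.2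
  · simp only [h, if_true]
    exact D.rho_comm _ _ _ _
  · simp [h]

lemma m2_comm : down3 Q * D.m2 = D.m2 * down3 Q := by
  rw [down3_eq, down2_eq, m2_sum, Finset.mul_sum, Finset.sum_mul, ← sub_eq_zero,
    ← Finset.sum_sub_distrib]
  rw [Finset.sum_congr rfl fun r _ => (T2_step _ (down Q) (D.v r) (D.v r)).symm]
  ext i j
  simp only [Matrix.sum_apply, Matrix.sub_apply, Matrix.zero_apply, Finset.sum_sub_distrib, T2]
  rw [sub_eq_zero, Finset.sum_comm]
  conv_rhs => rw [Finset.sum_comm]
  refine Finset.sum_congr rfl fun k _ => ?_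
  rw [Finset.sum_comm]
  conv_rhs => rw [Finset.sum_comm]
  refine Finset.sum_congr rfl fun l _ => ?_
  by_cases hkl : k = l
  · simp [hkl]
  simp only [ne_eq, hkl, not_false_eq_true, if_true]
  rw [Finset.sum_comm]
  conv_rhs => rw [Finset.sum_comm]
  refine Finset.sum_congr rfl fun x _ => ?_
  by_cases h : x k = i.2.1 ∧ x l = i.2.2
  · simp only [if_pos h]
    exact D.rho_comm _ _ _ _
  · simp [h]

lemma m1_symm : D.m1.IsSymm := by
  refine Matrix.IsSymm.ext fun i j => ?_
  simp only [m1]
  refine Finset.sum_congr rfl fun r _ => Finset.sum_congr rfl fun k _ => ?_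
  rw [← sum_move_site k i.2 j.2 fun x => D.v r j.1 x * D.v r i.1 (update x k i.2)]
  refine Finset.sum_congr rfl fun x _ => ?_
  by_cases h : x k = i.2
  · have hx : update x k i.2 = x := by rw [← h]; exact update_eq_self k x
    simp [h, hx, mul_comm]
  · simp [h]

lemma m2_symm : D.m2.IsSymm := by
  refine Matrix.IsSymm.ext fun i j => ?_
  simp only [m2]
  refine Finset.sum_congr rfl fun r _ => Finset.sum_congr rfl fun k _ =>
    Finset.sum_congr rfl fun l _ => ?_
  by_cases hkl : k = l
  · simp [hkl]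
  simp only [ne_eq, hkl, not_false_eq_true, if_true, ite_and]
  have h1 : ∀ (x : Fin n → UI Q) (c : UI Q), update x k c l = x l := fun x c => update_of_ne (Ne.symm hkl) _ _
  rw [← sum_move_site k i.2.1 j.2.1]
  simp only [h1, ← ite_and, and_comm (a := _ = i.2.1)]
  simp only [ite_and]
  rw [← sum_move_site l i.2.2 j.2.2]
  refine Finset.sum_congr rfl fun x _ => ?_
  by_cases h2 : x l = i.2.2
  · by_cases h3 : x k = i.2.1
    · have hx : update x k i.2.1 = x := by rw [← h3]; exact update_eq_self k x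
      have hy : update x l i.2.2 = x := by rw [← h2]; exact update_eq_self l x
      have hA : ∀ c, update (update (update x l j.2.2) k c) l i.2.2 = update x k c := fun c => by
        rw [update_comm hkl, update_idem, hy]
      simp only [h2, h3, update_of_ne hkl, if_true, update_idem, hA, hx]
      rw [update_comm hkl, mul_comm]
    · simp [h2, h3, update_of_ne hkl]
  · simp [h2]

end Data

/-! ### Levels -/

lemma down_bracket (A : ℕ) : (down A)ᵀ * down A - down A * (down A)ᵀ =
    diagonal fun i : Fin (A + 1) => (A : ℝ) - 2 * (i : ℕ) := by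
  ext i j
  simp only [Matrix.sub_apply, Matrix.mul_apply, transpose_apply, down]
  have hsq : ∀ a : ℕ, a ≤ A → low A a * low A a = ((a : ℝ) + 1) * ((A : ℝ) - a) := fun a ha => by
    refine Real.mul_self_sqrt (mul_nonneg (by positivity) (sub_nonneg.2 ?_))
    exact_mod_cast ha
  have h1 : (∑ x : Fin (A + 1), (if (x : ℕ) = (i : ℕ) + 1 then low A i else 0) *
      if (x : ℕ) = (j : ℕ) + 1 then low A j else 0) =
      if i = j then ((i : ℝ) + 1) * ((A : ℝ) - (i : ℕ)) else 0 := by
    by_cases h : (i : ℕ) < A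
    · rw [Finset.sum_eq_single ⟨i + 1, by omega⟩
        (fun x _ hx => by
          have : (x : ℕ) ≠ i + 1 := fun e => hx (Fin.ext e)
          simp [this]) (by simp)]
      by_cases hij : i = j
      · subst hij; simp [hsq i h.le]
      · have h' : (i : ℕ) ≠ (j : ℕ) := fun e => hij (Fin.ext e)
        simp [hij, h']
    · have hi : (i : ℕ) = A := by omega
      rw [Finset.sum_eq_zero fun x _ => by
        have : (x : ℕ) ≠ (i : ℕ) + 1 := by omega
        simp [this]]
      split_ifs <;> simp [hi]
  have h2 : (∑ x : Fin (A + 1), (if (i : ℕ) = (x : ℕ) + 1 then low A x else 0) *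
      if (j : ℕ) = (x : ℕ) + 1 then low A x else 0) =
      if i = j then (i : ℝ) * ((A : ℝ) + 1 - (i : ℕ)) else 0 := by
    by_cases h : (i : ℕ) = 0
    · rw [Finset.sum_eq_zero fun x _ => by
        have : (i : ℕ) ≠ (x : ℕ) + 1 := by omega
        simp [this]]
      split_ifs <;> simp [h]
    · rw [Finset.sum_eq_single ⟨i - 1, by omega⟩
        (fun x _ hx => by
          have : (i : ℕ) ≠ (x : ℕ) + 1 := fun e => hx (Fin.ext (show (x : ℕ) = i - 1 by omega))
          simp [this]) (by simp)]
      have e : (i : ℕ) - 1 + 1 = i := by omega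
      by_cases hij : i = j
      · subst hij
        simp only [e, if_true, hsq (i - 1) (by omega)]
        rw [Nat.cast_sub (by omega)]
        push_cast; ring
      · have h' : (j : ℕ) ≠ (i : ℕ) := fun e' => hij (Fin.ext e'.symm)
        simp [hij, h', e]
  rw [h1, h2, diagonal_apply]
  split_ifs <;> ring

lemma two_bracket {α β : Type} [Fintype α] [Fintype β] [DecidableEq α] [DecidableEq β]
    {P : Matrix α α ℝ} {p : Matrix β β ℝ} {u : α → ℝ} {w : β → ℝ}
    (hP : Pᵀ * P - P * Pᵀ = diagonal u) (hp : pᵀ * p - p * pᵀ = diagonal w) :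
    (P ⊗ₖ 1 + 1 ⊗ₖ p)ᵀ * (P ⊗ₖ 1 + 1 ⊗ₖ p) - (P ⊗ₖ 1 + 1 ⊗ₖ p) * (P ⊗ₖ 1 + 1 ⊗ₖ p)ᵀ =
      diagonal fun i => u i.1 + w i.2 := by
  have hT : (P ⊗ₖ 1 + 1 ⊗ₖ p : Matrix (α × β) (α × β) ℝ)ᵀ = Pᵀ ⊗ₖ 1 + 1 ⊗ₖ pᵀ := by
    ext x y
    simp [one_apply, eq_comm]
  rw [hT]
  simp only [add_mul, mul_add, ← mul_kronecker_mul, one_mul, mul_one]
  rw [eq_add_of_sub_eq hP, eq_add_of_sub_eq hp, add_kronecker, kronecker_add]
  ext x y
  simp [one_apply, diagonal_apply, Prod.ext_iff]
  split_ifs <;> simp_all <;> ring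

/-- A symmetric matrix commuting with lowering conserves the level. -/
lemma level_zero {ι : Type} [Fintype ι] [DecidableEq ι] {g D : Matrix ι ι ℝ} {w : ι → ℝ}
    (hs : g.IsSymm) (hc : D * g = g * D) (hw : Dᵀ * D - D * Dᵀ = diagonal w) {x y : ι}
    (h : w x ≠ w y) : g x y = 0 := by
  have hc' : Dᵀ * g = g * Dᵀ := by
    have := congrArg Matrix.transpose hc
    rw [transpose_mul, transpose_mul, hs.eq] at this
    exact this.symm
  have h1 : diagonal w * g = g * diagonal w := by
    rw [← hw, sub_mul, mul_sub]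
    congr 1
    · rw [Matrix.mul_assoc, hc, ← Matrix.mul_assoc, hc', Matrix.mul_assoc]
    · rw [Matrix.mul_assoc, hc', ← Matrix.mul_assoc, hc, Matrix.mul_assoc]
  have h2 := congrFun (congrFun h1 x) y
  rw [diagonal_mul, mul_diagonal] at h2
  have : (w x - w y) * g x y = 0 := by rw [sub_mul, h2]; ring
  exact (mul_eq_zero.1 this).resolve_left (sub_ne_zero.2 h)

namespace Data

variable (D : Data Q n)

lemma centre_level (hQ : 2 ≤ Q) : D.m0 = D.centre • (1 : Matrix (CI Q) (CI Q) ℝ) := by
  set A := 2 * Q - 2 with hA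
  have hs : ∀ i j, D.m0 i j = D.m0 j i := fun i j => by simp only [m0, mul_comm]
  have hc := D.m0_comm
  have hentry : ∀ i j : CI Q, (∑ z, down A i z * D.m0 z j) = ∑ z, D.m0 i z * down A z j :=
    fun i j => by simpa [Matrix.mul_apply] using congrFun (congrFun hc i) j
  have hlow : ∀ a : ℕ, a < A → low A a ≠ 0 := fun a ha => by
    refine (Real.sqrt_pos.2 (mul_pos (by positivity) (sub_pos.2 ?_))).ne'
    exact_mod_cast ha
  have hr : ∀ (i : CI Q) (b : ℕ) (hb : b + 1 < A + 1),
      (∑ z, D.m0 i z * down A z ⟨b, by omega⟩) = D.m0 i ⟨b + 1, hb⟩ * low A b := fun i b hb => by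
    rw [Finset.sum_eq_single ⟨b + 1, hb⟩ (fun z _ hz => by
      have : (z : ℕ) ≠ b + 1 := fun e => hz (Fin.ext e)
      simp [down, this]) (by simp)]
    simp [down]
  have hl0 : ∀ (j : CI Q) (h0 : 0 < A + 1), (∑ z, down A ⟨0, h0⟩ z * D.m0 z j) = 0 :=
    fun j h0 => Finset.sum_eq_zero fun z _ => by simp [down]
  have hl : ∀ (a : ℕ) (ha : a + 1 < A + 1) (j : CI Q),
      (∑ z, down A ⟨a + 1, ha⟩ z * D.m0 z j) = low A a * D.m0 ⟨a, by omega⟩ j := fun a ha j => by
    rw [Finset.sum_eq_single ⟨a, by omega⟩ (fun z _ hz => by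
      have : a ≠ (z : ℕ) := fun e => hz (Fin.ext e.symm)
      simp [down, this]) (by simp)]
    simp [down]
  have hupper : ∀ (a : ℕ) (ha : a < A + 1) (b : ℕ) (hb : b < A + 1), a < b →
      D.m0 ⟨a, ha⟩ ⟨b, hb⟩ = 0 := by
    intro a
    induction a with
    | zero =>
      intro ha b hb hab
      obtain ⟨c, rfl⟩ : ∃ c, b = c + 1 := ⟨b - 1, by omega⟩
      have := hentry ⟨0, ha⟩ ⟨c, by omega⟩
      rw [hr _ c hb, hl0 _ ha] at this
      exact (mul_eq_zero.1 this.symm).resolve_right (hlow c (by omega))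
    | succ a ih =>
      intro ha b hb hab
      obtain ⟨c, rfl⟩ : ∃ c, b = c + 1 := ⟨b - 1, by omega⟩
      have := hentry ⟨a + 1, ha⟩ ⟨c, by omega⟩
      rw [hr _ c hb, hl a ha, ih (by omega) c (by omega) (by omega), mul_zero] at this
      exact (mul_eq_zero.1 this.symm).resolve_right (hlow c (by omega))
  have hdiag : ∀ (a : ℕ) (ha : a < A + 1),
      D.m0 ⟨a, ha⟩ ⟨a, ha⟩ = D.m0 ⟨0, by omega⟩ ⟨0, by omega⟩ := by
    intro a
    induction a with
    | zero => intro ha; rfl
    | succ a ih =>
      intro ha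
      have := hentry ⟨a + 1, ha⟩ ⟨a, by omega⟩
      rw [hr _ a ha, hl a ha, ih (by omega), mul_comm] at this
      exact (mul_right_cancel₀ (hlow a (by omega)) this).symm
  set e := D.m0 ⟨0, by omega⟩ ⟨0, by omega⟩
  have heq : D.m0 = e • (1 : Matrix (CI Q) (CI Q) ℝ) := by
    ext i j
    obtain ⟨a, ha⟩ := i
    obtain ⟨b, hb⟩ := j
    rcases lt_trichotomy a b with h | h | h
    · simp [hupper a ha b hb h, h.ne]
    · subst h; simp [hdiag a ha]; rfl
    · rw [hs]; simp [hupper b hb a ha h, h.ne']
  have htr : ∑ C, D.m0 C C = (D.d : ℝ) := by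
    simp only [m0]
    rw [Finset.sum_comm]
    have : ∀ r, ∑ C, ∑ x, D.v r C x * D.v r C x = 1 := fun r => by
      simpa [ip] using D.orth r r
    simp [this]
  rw [heq] at htr
  simp at htr
  have hQ2 : (2 * Q - 2 : ℕ) + 1 = 2 * Q - 1 := by omega
  have h2 : (2 * (Q : ℝ) - 1) ≠ 0 := by
    have : (2 : ℝ) ≤ Q := by exact_mod_cast hQ
    intro h; linarith
  have he : e = D.centre := by
    rw [centre, eq_div_iff h2, ← htr]
    have : ((2 * Q - 2 : ℕ) : ℝ) = 2 * (Q : ℝ) - 2 := by
      rw [Nat.cast_sub (by omega)]; push_cast; ring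
    rw [this]; ring
  rw [heq, he]

lemma m0_apply (hQ : 2 ≤ Q) (C C' : CI Q) :
    D.m0 C C' = if C = C' then D.centre else 0 := by
  simp [D.centre_level hQ, one_apply]

lemma m1_level (x y : CI Q × UI Q) (h : (x.1 : ℕ) + x.2 ≠ (y.1 : ℕ) + y.2) : D.m1 x y = 0 := by
  have hw := two_bracket (down_bracket (2 * Q - 2)) (down_bracket Q)
  rw [← down2_eq] at hw
  refine level_zero D.m1_symm D.m1_comm hw fun e => h ?_
  have : ((x.1 : ℕ) : ℝ) + (x.2 : ℕ) = ((y.1 : ℕ) : ℝ) + (y.2 : ℕ) := by linarith
  exact_mod_cast this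

lemma m2_level (x y : CI Q × UI Q × UI Q)
    (h : (x.1 : ℕ) + x.2.1 + x.2.2 ≠ (y.1 : ℕ) + y.2.1 + y.2.2) : D.m2 x y = 0 := by
  have hw2 := two_bracket (down_bracket Q) (down_bracket Q)
  rw [← down2_eq] at hw2
  have hw := two_bracket (down_bracket (2 * Q - 2)) hw2
  rw [← down3_eq] at hw
  refine level_zero D.m2_symm D.m2_comm hw fun e => h ?_
  have : ((x.1 : ℕ) : ℝ) + (x.2.1 : ℕ) + (x.2.2 : ℕ) =
      ((y.1 : ℕ) : ℝ) + (y.2.1 : ℕ) + (y.2.2 : ℕ) := by linarith
  exact_mod_cast this

lemma symm1 : D.g1.IsSymm := D.m1_symm.smul _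

lemma symm2 : D.g2.IsSymm := D.m2_symm.smul _

lemma comm1 : D.g1 * down2 (2 * Q - 2) Q = down2 (2 * Q - 2) Q * D.g1 := by
  rw [g1, Matrix.smul_mul, Matrix.mul_smul, D.m1_comm]

lemma comm2 : D.g2 * down3 Q = down3 Q * D.g2 := by
  rw [g2, Matrix.smul_mul, Matrix.mul_smul, D.m2_comm]

lemma level1 (x y : CI Q × UI Q) (h : (x.1 : ℕ) + x.2 ≠ (y.1 : ℕ) + y.2) : D.g1 x y = 0 := by
  simp [g1, D.m1_level x y h]

lemma level2 (x y : CI Q × UI Q × UI Q)
    (h : (x.1 : ℕ) + x.2.1 + x.2.2 ≠ (y.1 : ℕ) + y.2.1 + y.2.2) : D.g2 x y = 0 := by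
  simp [g2, D.m2_level x y h]

end Data

end

end Vale.Agent.P359.Gap
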