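import Vale.Agent.P359.Gap.PairBasis
import Vale.Agent.P359.Gap.Bottom.Comm
import Mathlib.Analysis.InnerProductSpace.PiL2
import Mathlib.Topology.Algebra.Order.Field

/-!
# P359 gap, module Bottom: the bottom eigenspace

The quadratic form and the constraints are invariant under total lowering and raising, so the
minimisers of the Rayleigh quotient form a bottom family.
-/

namespace Vale.Agent.P359.Gap

open Matrix Finset Function Kronecker

noncomputable section

variable {Q n : ℕ}

/-! ### The pair basis intertwines -/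

/-- `pc` intertwines one site operators. -/
def Inter (P : Matrix (CI Q) (CI Q) ℝ) (p : Matrix (UI Q) (UI Q) ℝ) : Prop :=
  ∀ (C : CI Q) (a b : UI Q),
    (∑ e, p a e * pc Q C e b) + ∑ f, p b f * pc Q C a f = ∑ C', pc Q C' a b * P C' C

lemma inter_down (hQ : 0 < Q) : Inter (down (2 * Q - 2)) (down Q) := by
  intro C a b
  have h := congrFun (pc_down hQ C) (a, b)
  rw [down2_mulVec] at h
  rw [h]
  by_cases hC : (C : ℕ) < 2 * Q - 2
  · rw [Finset.sum_eq_single ⟨(C : ℕ) + 1, by omega⟩ (fun C' _ hC' => by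
      have : (C' : ℕ) ≠ (C : ℕ) + 1 := fun e => hC' (Fin.ext e)
      simp [down, this]) (by simp)]
    rw [dif_pos hC]
    simp [down]
    ring
  · simp only [hC, dite_false]
    refine (Finset.sum_eq_zero fun C' _ => ?_).symm
    have : (C' : ℕ) ≠ (C : ℕ) + 1 := by omega
    simp [down, this]

lemma down_flip (A : ℕ) (i j : Fin (A + 1)) : down A i.rev j.rev = down A j i := by
  simp only [down, Fin.val_rev]
  by_cases h : (j : ℕ) = (i : ℕ) + 1
  · rw [if_pos h, if_pos (by omega), low, low]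
    congr 1
    rw [show (A + 1 - ((j : ℕ) + 1)) = A - (j : ℕ) by omega, Nat.cast_sub (by omega), h]
    push_cast; ring
  · rw [if_neg h, if_neg (by omega)]

lemma pc_flip (hQ : 0 < Q) (C : CI Q) (a b : UI Q) : pc Q C.rev a.rev b.rev = -pc Q C a b := by
  simp only [pc, Fin.val_rev]
  by_cases h : (a : ℕ) + b = (C : ℕ) + 1
  · rw [if_pos h, if_pos (by omega), Nat.add_sub_add_right, Nat.add_sub_add_right,
      Nat.add_sub_add_right, Nat.choose_symm (by omega), Nat.choose_symm (by omega),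
      Nat.choose_symm (by omega), Nat.cast_sub (by omega), Nat.cast_sub (by omega)]
    ring
  · rw [if_neg h, if_neg (by omega), neg_zero]

lemma inter_up (hQ : 0 < Q) : Inter (down (2 * Q - 2))ᵀ (down Q)ᵀ := by
  intro C a b
  have h := inter_down hQ C.rev a.rev b.rev
  rw [← Equiv.sum_comp Fin.revPerm, ← Equiv.sum_comp Fin.revPerm (fun f => _ * pc Q _ _ f),
    ← Equiv.sum_comp Fin.revPerm (fun C' => pc Q C' _ _ * _)] at h
  simp only [Fin.revPerm_apply, down_flip, pc_flip hQ, mul_neg, neg_mul, Finset.sum_neg_distrib] at h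
  simp only [transpose_apply]
  linarith

/-- The two spins of a pair as one matrix. -/
def two (P : Matrix (CI Q) (CI Q) ℝ) (p : Matrix (UI Q) (UI Q) ℝ) :
    Matrix (CI Q × UI Q) (CI Q × UI Q) ℝ := P ⊗ₖ 1 + 1 ⊗ₖ p

/-- The centre and two particles as one matrix. -/
def three (P : Matrix (CI Q) (CI Q) ℝ) (p : Matrix (UI Q) (UI Q) ℝ) :
    Matrix (CI Q × UI Q × UI Q) (CI Q × UI Q × UI Q) ℝ := P ⊗ₖ 1 + 1 ⊗ₖ (p ⊗ₖ 1 + 1 ⊗ₖ p)

lemma Kmat_apply_symm (x y : CI Q × UI Q) : Kmat Q x y = Kmat Q y x := by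
  simp only [Kmat, mul_comm (pc Q x.1 _ _)]

lemma Kmat_comm {P : Matrix (CI Q) (CI Q) ℝ} {p : Matrix (UI Q) (UI Q) ℝ} (h : Inter P p)
    (ht : Inter Pᵀ pᵀ) : two P p * Kmat Q = Kmat Q * two P p := by
  ext ⟨C, x⟩ ⟨C', y⟩
  simp only [two, Matrix.mul_apply, two_sum_left, two_sum_right]
  simp only [Kmat]
  have e1 : ∀ a, ∑ E, P C E * pc Q E a y =
      (∑ e, p e a * pc Q C e y) + ∑ f, p f y * pc Q C a f := fun a => by
    have := ht C a y
    simp only [transpose_apply] at this
    rw [this]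
    exact Finset.sum_congr rfl fun _ _ => mul_comm _ _
  have hl : ∑ E, P C E * (-2 * ∑ a, pc Q E a y * pc Q C' a x) +
      ∑ z, p x z * (-2 * ∑ a, pc Q C a y * pc Q C' a z) =
      -2 * ∑ a, ((∑ E, P C E * pc Q E a y) * pc Q C' a x +
        pc Q C a y * ∑ z, p x z * pc Q C' a z) := by
    simp only [Finset.mul_sum, Finset.sum_mul, mul_add, Finset.sum_add_distrib]
    congr 1 <;> rw [Finset.sum_comm] <;>
      exact Finset.sum_congr rfl fun _ _ => Finset.sum_congr rfl fun _ _ => by ring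
  have hr : ∑ E, (-2 * ∑ a, pc Q C a y * pc Q E a x) * P E C' +
      ∑ z, (-2 * ∑ a, pc Q C a z * pc Q C' a x) * p z y =
      -2 * ∑ a, (pc Q C a y * (∑ E, pc Q E a x * P E C') +
        (∑ z, p z y * pc Q C a z) * pc Q C' a x) := by
    simp only [Finset.mul_sum, Finset.sum_mul, mul_add, Finset.sum_add_distrib]
    congr 1 <;> rw [Finset.sum_comm] <;>
      exact Finset.sum_congr rfl fun _ _ => Finset.sum_congr rfl fun _ _ => by ring
  have hswap : ∑ a, (∑ e, p e a * pc Q C e y) * pc Q C' a x =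
      ∑ a, pc Q C a y * ∑ e, p a e * pc Q C' e x := by
    simp only [Finset.mul_sum, Finset.sum_mul]
    rw [Finset.sum_comm]
    exact Finset.sum_congr rfl fun _ _ => Finset.sum_congr rfl fun _ _ => by ring
  rw [hl, hr]
  simp only [e1, ← h C' _ x, add_mul, mul_add, Finset.sum_add_distrib, hswap]
  ring

/-- The pair projection as a matrix. -/
def Prm (Q : ℕ) : Matrix (UI Q × UI Q) (UI Q × UI Q) ℝ := fun x y => Pr Q x.1 x.2 y.1 y.2

lemma Prm_comm {P : Matrix (CI Q) (CI Q) ℝ} {p : Matrix (UI Q) (UI Q) ℝ} (h : Inter P p)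
    (ht : Inter Pᵀ pᵀ) : (p ⊗ₖ 1 + 1 ⊗ₖ p) * Prm Q = Prm Q * (p ⊗ₖ 1 + 1 ⊗ₖ p) := by
  ext ⟨a, b⟩ ⟨c, d⟩
  simp only [Matrix.mul_apply, two_sum_left, two_sum_right]
  simp only [Prm, Pr]
  have hl : ∑ e, p a e * ∑ C, pc Q C e b * pc Q C c d + ∑ f, p b f * ∑ C, pc Q C a f * pc Q C c d =
      ∑ C, ((∑ e, p a e * pc Q C e b) + ∑ f, p b f * pc Q C a f) * pc Q C c d := by
    simp only [Finset.mul_sum, Finset.sum_mul, add_mul, Finset.sum_add_distrib]
    congr 1 <;> rw [Finset.sum_comm] <;>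
      exact Finset.sum_congr rfl fun _ _ => Finset.sum_congr rfl fun _ _ => by ring
  have hr : ∑ e, (∑ C, pc Q C a b * pc Q C e d) * p e c + ∑ f, (∑ C, pc Q C a b * pc Q C c f) * p f d =
      ∑ C, pc Q C a b * ((∑ e, pᵀ c e * pc Q C e d) + ∑ f, pᵀ d f * pc Q C c f) := by
    simp only [Finset.mul_sum, Finset.sum_mul, mul_add, Finset.sum_add_distrib, transpose_apply]
    congr 1 <;> rw [Finset.sum_comm] <;>
      exact Finset.sum_congr rfl fun _ _ => Finset.sum_congr rfl fun _ _ => by ring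
  rw [hl, hr]
  simp only [h _ a b, fun C => ht C c d]
  simp only [transpose_apply, Finset.mul_sum, Finset.sum_mul]
  rw [Finset.sum_comm]
  exact Finset.sum_congr rfl fun _ _ => Finset.sum_congr rfl fun _ _ => by ring

lemma Pr_symm (a b c d : UI Q) : Pr Q a b c d = Pr Q c d a b := by
  simp only [Pr, mul_comm]

lemma Pr_flip (a b c d : UI Q) : Pr Q b a d c = Pr Q a b c d := by
  refine Finset.sum_congr rfl fun C _ => ?_
  rw [pc_swap C a b, pc_swap C c d]
  ring

/-! ### The bilinear form -/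

/-- The bilinear form of the energy. -/
def Wbil (u t : St Q n) : ℝ :=
  (∑ i, ∑ j, Kmat Q i j * T1 u t i j) +
    (∑ i, ∑ j, ((1 : Matrix (CI Q) (CI Q) ℝ) ⊗ₖ Prm Q) i j * T2 u t i j) / 2

lemma frob_zero {ι : Type} [Fintype ι] {K D : Matrix ι ι ℝ} (hs : ∀ i j, K i j = K j i)
    (hc : D * K = K * D) (T : Matrix ι ι ℝ) : ∑ i, ∑ j, K i j * (D * T - T * D) i j = 0 := by
  have h : (K * (D * T - T * D)).trace = 0 := by
    rw [mul_sub, Matrix.trace_sub, ← Matrix.mul_assoc, ← Matrix.mul_assoc,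
      Matrix.trace_mul_cycle K T D, hc, sub_self]
  rw [← h, Finset.sum_comm]
  simp only [Matrix.trace, Matrix.diag, Matrix.mul_apply]
  exact Finset.sum_congr rfl fun _ _ => Finset.sum_congr rfl fun _ _ => by rw [hs]

lemma Wbil_opL {P : Matrix (CI Q) (CI Q) ℝ} {p : Matrix (UI Q) (UI Q) ℝ} (h : Inter P p)
    (ht : Inter Pᵀ pᵀ) (u t : St Q n) : Wbil (opL P p u) t = Wbil u (opL Pᵀ pᵀ t) := by
  have h1 := frob_zero Kmat_apply_symm (Kmat_comm h ht) (T1 u t)
  rw [two, ← T1_step] at h1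
  have hc : (P ⊗ₖ 1 + 1 ⊗ₖ (p ⊗ₖ 1 + 1 ⊗ₖ p)) * ((1 : Matrix (CI Q) (CI Q) ℝ) ⊗ₖ Prm Q) =
      ((1 : Matrix (CI Q) (CI Q) ℝ) ⊗ₖ Prm Q) * (P ⊗ₖ 1 + 1 ⊗ₖ (p ⊗ₖ 1 + 1 ⊗ₖ p)) := by
    rw [add_mul (P ⊗ₖ 1), mul_add ((1 : Matrix (CI Q) (CI Q) ℝ) ⊗ₖ Prm Q),
      ← mul_kronecker_mul, ← mul_kronecker_mul, ← mul_kronecker_mul, ← mul_kronecker_mul,
      Prm_comm h ht]
    simp
  have hs : ∀ x y, ((1 : Matrix (CI Q) (CI Q) ℝ) ⊗ₖ Prm Q) x y =
      ((1 : Matrix (CI Q) (CI Q) ℝ) ⊗ₖ Prm Q) y x := fun x y => by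
    simp [one_apply, Prm, Pr_symm x.2.1, eq_comm]
  have h2 := frob_zero hs hc (T2 u t)
  rw [← T2_step] at h2
  simp only [Matrix.sub_apply, mul_sub, Finset.sum_sub_distrib] at h1 h2
  simp only [Wbil]
  linarith

lemma frob_sum {ι κ : Type} [Fintype ι] [Fintype κ] (K : Matrix ι ι ℝ) (F : κ → ι → ι → ℝ) :
    ∑ i, ∑ j, K i j * ∑ k, F k i j = ∑ k, ∑ i, ∑ j, K i j * F k i j := by
  simp only [Finset.mul_sum]
  rw [Finset.sum_comm (γ := κ)]
  exact Finset.sum_congr rfl fun i _ => Finset.sum_comm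

lemma Wform_eq (χ : St Q n) : Wform χ = Wbil χ χ := by
  unfold Wform Wbil
  congr 1
  · rw [show (∑ i, ∑ j, Kmat Q i j * T1 χ χ i j) = _ from frob_sum (Kmat Q) _]
    refine Finset.sum_congr rfl fun k _ => ?_
    rw [Fintype.sum_prod_type (γ := ℝ)]
    refine Finset.sum_congr rfl fun C _ => ?_
    calc ∑ x : Fin n → UI Q, ∑ j : CI Q × UI Q,
          χ C x * Kmat Q (C, x k) j * χ j.1 (update x k j.2)
        = ∑ x : Fin n → UI Q, ∑ a : UI Q, if x k = a then
            ∑ j : CI Q × UI Q, χ C x * Kmat Q (C, a) j * χ j.1 (update x k j.2) else 0 := by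
          simp [Finset.sum_ite_eq]
      _ = _ := by
          rw [Finset.sum_comm]
          refine Finset.sum_congr rfl fun a _ => ?_
          simp only [Finset.mul_sum]
          conv_rhs => rw [Finset.sum_comm]
          refine Finset.sum_congr rfl fun x _ => ?_
          by_cases h : x k = a
          · simp only [h, if_true]
            exact Finset.sum_congr rfl fun _ _ => by ring
          · simp [h]
  · set f : Fin n → Fin n → ℝ := fun k l => ∑ C, ∑ x : Fin n → UI Q, ∑ c, ∑ d,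
      χ C x * Pr Q (x k) (x l) c d * χ C (update (update x k c) l d) with hf
    have hsum : (∑ i, ∑ j, ((1 : Matrix (CI Q) (CI Q) ℝ) ⊗ₖ Prm Q) i j * T2 χ χ i j) =
        ∑ k, ∑ l, if k ≠ l then f k l else 0 := by
      rw [show (∑ i, ∑ j, ((1 : Matrix (CI Q) (CI Q) ℝ) ⊗ₖ Prm Q) i j * T2 χ χ i j) = _ from
        frob_sum _ _]
      refine Finset.sum_congr rfl fun k _ => ?_
      rw [frob_sum]
      refine Finset.sum_congr rfl fun l _ => ?_
      by_cases hkl : k = l
      · simp [hkl]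
      simp only [ne_eq, hkl, not_false_eq_true, if_true, hf]
      rw [Fintype.sum_prod_type (γ := ℝ)]
      refine Finset.sum_congr rfl fun C _ => ?_
      symm
      calc ∑ x : Fin n → UI Q, ∑ c, ∑ d,
            χ C x * Pr Q (x k) (x l) c d * χ C (update (update x k c) l d)
          = ∑ x : Fin n → UI Q, ∑ ab : UI Q × UI Q, if (x k, x l) = ab then
              ∑ cd : UI Q × UI Q,
                χ C x * Prm Q ab cd * χ C (update (update x k cd.1) l cd.2) else 0 := by
            simp [Finset.sum_ite_eq, Fintype.sum_prod_type, Prm]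
        _ = _ := by
            rw [Finset.sum_comm]
            refine Finset.sum_congr rfl fun ab _ => ?_
            simp only [Finset.mul_sum]
            conv_rhs => rw [Finset.sum_comm]
            refine Finset.sum_congr rfl fun x _ => ?_
            by_cases h : x k = ab.1 ∧ x l = ab.2
            · have h' : (x k, x l) = ab := Prod.ext h.1 h.2
              simp only [h', if_true, if_pos h]
              rw [Fintype.sum_prod_type (α₁ := CI Q), Finset.sum_eq_single C]
              · exact Finset.sum_congr rfl fun _ _ => by simp [one_apply]; ring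
              · intro D _ hD
                simp [one_apply, Ne.symm hD]
              · simp
            · have h' : (x k, x l) ≠ ab := fun e => h ⟨by rw [← e], by rw [← e]⟩
              simp [h, h']
    have hfs : ∀ k l, k ≠ l → f k l = f l k := by
      intro k l hkl
      simp only [hf]
      refine Finset.sum_congr rfl fun C _ => Finset.sum_congr rfl fun x _ => ?_
      rw [Finset.sum_comm]
      refine Finset.sum_congr rfl fun c _ => Finset.sum_congr rfl fun d _ => ?_
      rw [update_comm hkl, Pr_flip]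
    have e2 : (∑ k, ∑ l, if k ≠ l then f k l else 0) = 2 * ∑ k, ∑ l, if k < l then f k l else 0 := by
      have hsplit : ∀ k l, (if k ≠ l then f k l else 0) =
          (if k < l then f k l else 0) + if l < k then f l k else 0 := fun k l => by
        rcases lt_trichotomy k l with h | h | h
        · simp [h.ne, h, h.not_gt]
        · simp [h]
        · simp [h.ne', h, h.not_gt, hfs k l h.ne']
      simp only [hsplit, Finset.sum_add_distrib]
      rw [Finset.sum_comm (f := fun k l => if l < k then f l k else 0)]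
      ring
    rw [hsum, e2]
    simp only [hf]
    ring

lemma T1_lin (a : ℝ) (u w t : St Q n) : T1 (a • u + w) t = a • T1 u t + T1 w t ∧
    T1 t (a • u + w) = a • T1 t u + T1 t w := by
  constructor <;> ext i j <;>
    simp only [T1, Matrix.add_apply, Matrix.smul_apply, smul_eq_mul, Pi.add_apply, Pi.smul_apply,
      Finset.mul_sum, ← Finset.sum_add_distrib] <;>
    refine Finset.sum_congr rfl fun _ _ => Finset.sum_congr rfl fun _ _ => ?_ <;>
    split_ifs <;> ring

lemma T2_lin (a : ℝ) (u w t : St Q n) : T2 (a • u + w) t = a • T2 u t + T2 w t ∧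
    T2 t (a • u + w) = a • T2 t u + T2 t w := by
  constructor <;> ext i j <;>
    simp only [T2, Matrix.add_apply, Matrix.smul_apply, smul_eq_mul, Pi.add_apply, Pi.smul_apply,
      Finset.mul_sum, ← Finset.sum_add_distrib] <;>
    refine Finset.sum_congr rfl fun _ _ => Finset.sum_congr rfl fun _ _ => ?_ <;>
    split_ifs <;> simp only [Finset.mul_sum, ← Finset.sum_add_distrib, mul_zero, add_zero] <;>
    refine Finset.sum_congr rfl fun _ _ => ?_ <;>
    split_ifs <;> ring

lemma Wbil_lin (a : ℝ) (u w t : St Q n) : Wbil (a • u + w) t = a * Wbil u t + Wbil w t ∧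
    Wbil t (a • u + w) = a * Wbil t u + Wbil t w := by
  constructor <;>
    simp only [Wbil, (T1_lin a u w t).1, (T2_lin a u w t).1, (T1_lin a u w t).2,
      (T2_lin a u w t).2, Matrix.add_apply, Matrix.smul_apply, smul_eq_mul, mul_add,
      Finset.sum_add_distrib, mul_left_comm _ a, ← Finset.mul_sum] <;> ring

/-- The symmetric bilinear form. -/
def Bs (u t : St Q n) : ℝ := (Wbil u t + Wbil t u) / 2

lemma Bs_comm (u t : St Q n) : Bs u t = Bs t u := by simp [Bs, add_comm]

lemma Bs_lin (a : ℝ) (u w t : St Q n) : Bs (a • u + w) t = a * Bs u t + Bs w t := by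
  simp only [Bs, (Wbil_lin a u w t).1, (Wbil_lin a u w t).2]
  ring

lemma Bs_self (u : St Q n) : Bs u u = Wform u := by rw [Bs, Wform_eq]; ring

lemma Bs_opL {P : Matrix (CI Q) (CI Q) ℝ} {p : Matrix (UI Q) (UI Q) ℝ} (h : Inter P p)
    (ht : Inter Pᵀ pᵀ) (u t : St Q n) : Bs (opL P p u) t = Bs u (opL Pᵀ pᵀ t) := by
  have h1 := Wbil_opL h ht u t
  have h2 := Wbil_opL (P := Pᵀ) (p := pᵀ) ht (by simpa using h) t u
  simp only [transpose_transpose] at h2
  simp only [Bs, h1, ← h2]

/-! ### The inner product -/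

lemma ip_comm (u t : St Q n) : ip u t = ip t u := by simp [ip, mul_comm]

lemma ip_lin (a : ℝ) (u w t : St Q n) : ip (a • u + w) t = a * ip u t + ip w t := by
  simp [ip, add_mul, Finset.mul_sum, Finset.sum_add_distrib, mul_assoc]

lemma ip_self (u : St Q n) : ip u u = sqSum u := by simp [ip, sqSum, sq]

lemma ip_opL (P : Matrix (CI Q) (CI Q) ℝ) (p : Matrix (UI Q) (UI Q) ℝ) (u t : St Q n) :
    ip (opL P p u) t = ip u (opL Pᵀ pᵀ t) := by
  have h := congrArg Matrix.trace (T0_step P p u t)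
  rw [Matrix.trace_sub, Matrix.trace_sub, Matrix.trace_mul_comm P, sub_self, sub_eq_zero] at h
  exact h

lemma sqSum_nonneg (u : St Q n) : 0 ≤ sqSum u :=
  Finset.sum_nonneg fun _ _ => Finset.sum_nonneg fun _ _ => sq_nonneg _

lemma sqSum_eq_zero {u : St Q n} (h : sqSum u = 0) : u = 0 := by
  funext C x
  have h1 := (Finset.sum_eq_zero_iff_of_nonneg fun C _ =>
    Finset.sum_nonneg fun x _ => sq_nonneg (u C x)).1 h C (Finset.mem_univ C)
  have h2 := (Finset.sum_eq_zero_iff_of_nonneg fun x _ => sq_nonneg (u C x)).1 h1 x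
    (Finset.mem_univ x)
  exact pow_eq_zero_iff two_ne_zero |>.1 h2

/-! ### The constraints -/

lemma anti_opL (P : Matrix (CI Q) (CI Q) ℝ) (p : Matrix (UI Q) (UI Q) ℝ) {χ : St Q n}
    (h : Anti χ) : Anti (opL P p χ) := by
  intro e C x
  have hu : ∀ k a, update (x ∘ e) k a = update x (e k) a ∘ e := fun k a => by
    rw [update_comp_equiv, Equiv.symm_apply_apply]
  simp only [opL, mul_add, Finset.mul_sum]
  congr 1
  · exact Finset.sum_congr rfl fun C' _ => by rw [h e C' x]; ring
  · rw [← Equiv.sum_comp e fun k => ∑ a, ((Equiv.Perm.sign e : ℤ) : ℝ) *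
      (p (x k) a * χ C (update x k a))]
    refine Finset.sum_congr rfl fun k _ => Finset.sum_congr rfl fun a _ => ?_
    rw [hu, h e C]
    simp only [Function.comp_apply]
    ring

lemma vanish_opL {P : Matrix (CI Q) (CI Q) ℝ} {p : Matrix (UI Q) (UI Q) ℝ} (h : Inter P p)
    (ht : Inter Pᵀ pᵀ) {χ : St Q n} (hv : Vanish χ) : Vanish (opL P p χ) := by
  intro v hK k x
  set v' : CI Q × UI Q → ℝ := two Pᵀ pᵀ *ᵥ v with hv'
  have hK' : Kmat Q *ᵥ v' = -v' := by
    rw [hv', mulVec_mulVec, ← Kmat_comm ht (by simpa using h), ← mulVec_mulVec, hK, mulVec_neg]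
  have h0 := hv v' hK' k x
  have hv'a : ∀ j : CI Q × UI Q, v' j = (∑ C, P C j.1 * v (C, j.2)) + ∑ b, p b j.2 * v (j.1, b) :=
    fun j => by
      simp [hv', two, mulVec, dotProduct, add_mul, Finset.sum_add_distrib, Fintype.sum_prod_type,
        one_apply]
  have e : ∑ i, v i * opL P p χ i.1 (update x k i.2) =
      (∑ j, v' j * χ j.1 (update x k j.2)) +
        ∑ m ∈ Finset.univ.erase k, ∑ b, p (x m) b * ∑ i, v i * χ i.1 (update (update x m b) k i.2) := by
    have e1 : ∀ i : CI Q × UI Q, v i * opL P p χ i.1 (update x k i.2) =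
        (v i * ∑ C', P i.1 C' * χ C' (update x k i.2) +
          v i * ∑ b, p i.2 b * χ i.1 (update x k b)) +
          ∑ m ∈ Finset.univ.erase k, ∑ b, p (x m) b * (v i * χ i.1 (update (update x m b) k i.2)) := by
      intro i
      rw [opL, ← Finset.add_sum_erase _ _ (Finset.mem_univ k), mul_add, mul_add, ← add_assoc]
      congr 1
      · simp
      · rw [Finset.mul_sum]
        refine Finset.sum_congr rfl fun m hm => ?_
        have hmk := (Finset.mem_erase.1 hm).1
        rw [Finset.mul_sum]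
        refine Finset.sum_congr rfl fun b _ => ?_
        rw [update_of_ne hmk, update_comm hmk]
        ring
    simp only [e1, Finset.sum_add_distrib]
    congr 1
    · simp only [hv'a, add_mul, Finset.sum_add_distrib, Finset.sum_mul, Finset.mul_sum,
        Fintype.sum_prod_type]
      congr 1
      · conv_lhs => arg 2; ext C; rw [Finset.sum_comm]
        rw [Finset.sum_comm]
        refine Finset.sum_congr rfl fun C _ => ?_
        rw [Finset.sum_comm]
        exact Finset.sum_congr rfl fun _ _ => Finset.sum_congr rfl fun _ _ => by ring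
      · refine Finset.sum_congr rfl fun C _ => ?_
        rw [Finset.sum_comm]
        exact Finset.sum_congr rfl fun _ _ => Finset.sum_congr rfl fun _ _ => by ring
    · rw [Finset.sum_comm]
      refine Finset.sum_congr rfl fun m _ => ?_
      rw [Finset.sum_comm]
      simp only [Finset.mul_sum]
  rw [e, h0, zero_add]
  refine Finset.sum_eq_zero fun m _ => Finset.sum_eq_zero fun b _ => ?_
  rw [hv v hK k (update x m b), mul_zero]

/-! ### The bottom family -/

/-- The states allowed. -/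
def allowed (Q n : ℕ) : Submodule ℝ (St Q n) where
  carrier := {χ | Anti χ ∧ Vanish χ}
  zero_mem' := ⟨fun e C x => by simp, fun v _ k x => by simp⟩
  add_mem' {u w} hu hw := ⟨fun e C x => by simp [hu.1 e C x, hw.1 e C x, mul_add],
    fun v hv k x => by simp [mul_add, Finset.sum_add_distrib, hu.2 v hv k x, hw.2 v hv k x]⟩
  smul_mem' a u hu := ⟨fun e C x => by simp [hu.1 e C x]; ring,
    fun v hv k x => by simp [mul_left_comm _ a, ← Finset.mul_sum, hu.2 v hv k x]⟩

/-- The states orthogonal, for the form less `lam`, to all allowed states. -/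
def minimisers (Q n : ℕ) (lam : ℝ) : Submodule ℝ (St Q n) where
  carrier := {u | u ∈ allowed Q n ∧ ∀ s ∈ allowed Q n, Bs u s = lam * ip u s}
  zero_mem' := ⟨Submodule.zero_mem _, fun s _ => by simp [Bs, Wbil, T1, T2, ip]⟩
  add_mem' {u w} hu hw := ⟨Submodule.add_mem _ hu.1 hw.1, fun s hs => by
    have h1 := Bs_lin 1 u w s
    have h2 := ip_lin 1 u w s
    rw [one_smul] at h1 h2
    rw [h1, h2, hu.2 s hs, hw.2 s hs]; ring⟩
  smul_mem' a u hu := ⟨Submodule.smul_mem _ a hu.1, fun s hs => by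
    have h1 := Bs_lin a u 0 s
    have h2 := ip_lin a u 0 s
    simp only [add_zero] at h1 h2
    rw [h1, h2, hu.2 s hs]
    simp [Bs, Wbil, T1, T2, ip]
    ring⟩

lemma minimisers_opL {lam : ℝ} {P : Matrix (CI Q) (CI Q) ℝ} {p : Matrix (UI Q) (UI Q) ℝ}
    (h : Inter P p) (ht : Inter Pᵀ pᵀ) {u : St Q n} (hu : u ∈ minimisers Q n lam) :
    opL P p u ∈ minimisers Q n lam := by
  refine ⟨⟨anti_opL P p hu.1.1, vanish_opL h ht hu.1.2⟩, fun s hs => ?_⟩
  rw [Bs_opL h ht, ip_opL, hu.2 _ ⟨anti_opL _ _ hs.1, vanish_opL ht (by simpa using h) hs.2⟩]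

lemma isClosed_allowed : IsClosed {χ : St Q n | Anti χ ∧ Vanish χ} := by
  simp only [Anti, Vanish, Set.ofPred_and, Set.ofPred_forall]
  refine IsClosed.inter ?_ ?_
  · exact isClosed_iInter fun e => isClosed_iInter fun C => isClosed_iInter fun x =>
      isClosed_eq (by fun_prop) (by fun_prop)
  · exact isClosed_iInter fun v => isClosed_iInter fun hv => isClosed_iInter fun k =>
      isClosed_iInter fun x => isClosed_eq (by fun_prop) (by fun_prop)

lemma continuous_Wform : Continuous (Wform : St Q n → ℝ) := by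
  refine .add (by fun_prop) (continuous_finsetSum _ fun k _ => continuous_finsetSum _ fun l _ => ?_)
  split_ifs <;> fun_prop

lemma exists_min {χ : St Q n} (ha : Anti χ) (hv : Vanish χ) (hne : sqSum χ ≠ 0) :
    ∃ lam : ℝ, (∀ u ∈ allowed Q n, lam * sqSum u ≤ Wform u) ∧
      ∃ u₀ ∈ allowed Q n, sqSum u₀ = 1 ∧ Wform u₀ = lam := by
  set K : Set (St Q n) := {u | (Anti u ∧ Vanish u) ∧ sqSum u = 1} with hK
  have hKc : IsCompact K := by
    refine Metric.isCompact_of_isClosed_isBounded
      (isClosed_allowed.inter (isClosed_eq (by unfold sqSum; fun_prop) continuous_const)) ?_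
    refine (Metric.isBounded_closedBall (x := (0 : St Q n)) (r := 1)).subset fun u hu => ?_
    rw [Metric.mem_closedBall, dist_zero_right, pi_norm_le_iff_of_nonneg zero_le_one]
    intro C
    rw [pi_norm_le_iff_of_nonneg zero_le_one]
    intro x
    rw [Real.norm_eq_abs, abs_le_one_iff_mul_self_le_one, ← hu.2, ← sq]
    exact le_trans (Finset.single_le_sum (fun y _ => sq_nonneg (u C y)) (Finset.mem_univ x))
      (Finset.single_le_sum (f := fun C => ∑ y, u C y ^ 2)
        (fun C _ => Finset.sum_nonneg fun y _ => sq_nonneg (u C y)) (Finset.mem_univ C))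
  have hscale : ∀ (a : ℝ) (u : St Q n),
      sqSum (a • u) = a ^ 2 * sqSum u ∧ Wform (a • u) = a ^ 2 * Wform u := by
    intro a u
    refine ⟨by simp [sqSum, Finset.mul_sum, mul_pow], ?_⟩
    rw [← Bs_self, ← Bs_self]
    have h1 := Bs_lin a u 0 (a • u)
    have h2 := Bs_lin a u 0 u
    simp only [add_zero] at h1 h2
    rw [h1, Bs_comm u, h2]
    simp [Bs, Wbil, T1, T2]
    ring
  have hunit : ∀ u : St Q n, u ∈ allowed Q n → sqSum u ≠ 0 →
      (Real.sqrt (sqSum u))⁻¹ • u ∈ K := by
    intro u hu h0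
    refine ⟨(allowed Q n).smul_mem _ hu, ?_⟩
    rw [(hscale _ u).1, inv_pow, Real.sq_sqrt (sqSum_nonneg u), inv_mul_cancel₀ h0]
  obtain ⟨u₀, hu₀, hmin⟩ := hKc.exists_isMinOn ⟨_, hunit χ ⟨ha, hv⟩ hne⟩
    continuous_Wform.continuousOn
  refine ⟨Wform u₀, fun u hu => ?_, u₀, hu₀.1, hu₀.2, rfl⟩
  by_cases h0 : sqSum u = 0
  · rw [sqSum_eq_zero h0]
    simp [sqSum, Wform]
  · have h := hmin (hunit u hu h0)
    simp only [Set.mem_ofPred_eq, (hscale _ u).2, inv_pow] at h
    have hp : 0 < sqSum u := lt_of_le_of_ne (Finset.sum_nonneg fun C _ =>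
      Finset.sum_nonneg fun x _ => sq_nonneg _) (Ne.symm h0)
    rw [Real.sq_sqrt hp.le, ← div_eq_inv_mul, le_div_iff₀ hp] at h
    exact h

lemma minimiser_mem {lam : ℝ} (hlam : ∀ u ∈ allowed Q n, lam * sqSum u ≤ Wform u) {u : St Q n}
    (hu : u ∈ allowed Q n) (he : Wform u = lam * sqSum u) : u ∈ minimisers Q n lam := by
  refine ⟨hu, fun s hs => ?_⟩
  set b := Bs u s - lam * ip u s with hb
  set q := Wform s - lam * sqSum s with hq
  have h : ∀ t : ℝ, 0 ≤ t ^ 2 * q + 2 * t * b := by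
    intro t
    have h := hlam (t • s + u) ((allowed Q n).add_mem ((allowed Q n).smul_mem t hs) hu)
    rw [← Bs_self, ← ip_self, Bs_lin, Bs_comm s, Bs_comm u, Bs_lin, Bs_lin, ip_lin, ip_comm s,
      ip_comm u (t • s + u), ip_lin, ip_lin, Bs_self, Bs_self, ip_self, ip_self, Bs_comm s u,
      ip_comm s u, he] at h
    simp only [hb, hq]
    nlinarith [h]
  have hq0 : 0 ≤ q := by
    have := hlam s hs
    simp only [hq]; linarith
  have h1 := h (-b / (q + 1))
  have : (-b / (q + 1)) ^ 2 * q + 2 * (-b / (q + 1)) * b = -(b ^ 2 * (q + 2)) / (q + 1) ^ 2 := by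
    field_simp
    ring
  rw [this, neg_div, Left.nonneg_neg_iff, div_nonpos_iff] at h1
  have hpos : (0 : ℝ) < (q + 1) ^ 2 := by positivity
  have hb0 : b ^ 2 * (q + 2) ≤ 0 := by
    rcases h1 with h1 | h1
    · linarith [h1.2]
    · exact h1.1
  have : b = 0 := pow_eq_zero_iff two_ne_zero |>.1
    (le_antisymm (by nlinarith [hb0, sq_nonneg b]) (sq_nonneg b))
  linarith

/-- States from vectors. -/
def ofVec : EuclideanSpace ℝ (CI Q × (Fin n → UI Q)) →ₗ[ℝ] St Q n where
  toFun z C x := z (C, x)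
  map_add' _ _ := rfl
  map_smul' _ _ := rfl

lemma ip_ofVec (z w : EuclideanSpace ℝ (CI Q × (Fin n → UI Q))) :
    ip (ofVec z) (ofVec w) = inner ℝ z w := by
  rw [PiLp.inner_apply, Fintype.sum_prod_type]
  refine Finset.sum_congr rfl fun C _ => Finset.sum_congr rfl fun x _ => ?_
  exact mul_comm (z (C, x)) (w (C, x))

/-- A state of energy below `-c` gives a bottom family of energy below `-c`. -/
theorem exists_data (hQ : 2 ≤ Q) {χ : St Q n} (ha : Anti χ) (hv : Vanish χ) {c : ℝ}
    (h : Wform χ < -c * sqSum χ) : ∃ D : Data Q n, D.lam < -c := by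
  have hne : sqSum χ ≠ 0 := by
    intro h0
    rw [sqSum_eq_zero h0] at h
    simp [sqSum, Wform] at h
  obtain ⟨lam, hlam, u₀, hu₀, hu₁, hu₂⟩ := exists_min ha hv hne
  have hlt : lam < -c := by
    have hp : 0 < sqSum χ := lt_of_le_of_ne (Finset.sum_nonneg fun C _ =>
      Finset.sum_nonneg fun x _ => sq_nonneg _) (Ne.symm hne)
    have := hlam χ ⟨ha, hv⟩
    exact lt_of_mul_lt_mul_right (this.trans_lt h) hp.le
  set V := (minimisers Q n lam).comap (ofVec (Q := Q) (n := n)) with hV
  let z₀ : EuclideanSpace ℝ (CI Q × (Fin n → UI Q)) := WithLp.toLp 2 fun p => u₀ p.1 p.2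
  have hz₀ : z₀ ∈ V := by
    show u₀ ∈ minimisers Q n lam
    exact minimiser_mem hlam hu₀ (by rw [hu₂, hu₁, mul_one])
  have : Nontrivial V := ⟨⟨⟨z₀, hz₀⟩, 0, fun e => by
    have h1 : ofVec z₀ = u₀ := rfl
    have h2 : z₀ = 0 := congrArg Subtype.val e
    rw [h2, map_zero] at h1
    rw [← h1] at hu₁
    simp [sqSum] at hu₁⟩⟩
  let b := stdOrthonormalBasis ℝ V
  let v : Fin (Module.finrank ℝ V) → St Q n := fun r => ofVec (b r : EuclideanSpace ℝ _)
  have hvm : ∀ r, v r ∈ minimisers Q n lam := fun r => (b r).2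
  have horth : ∀ r s, ip (v r) (v s) = if r = s then 1 else 0 := fun r s => by
    rw [ip_ofVec, ← Submodule.coe_inner]
    exact orthonormal_iff_ite.1 b.orthonormal r s
  have hdt : ∀ {P : Matrix (CI Q) (CI Q) ℝ} {p : Matrix (UI Q) (UI Q) ℝ}, Inter P p →
      Inter Pᵀ pᵀ → ∀ r, opL P p (v r) = ∑ s, ip (v s) (opL P p (v r)) • v s := by
    intro P p hP hPt r
    let z : EuclideanSpace ℝ (CI Q × (Fin n → UI Q)) :=
      WithLp.toLp 2 fun q => opL P p (v r) q.1 q.2
    have hz : z ∈ V := minimisers_opL hP hPt (hvm r)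
    have he := congrArg (fun y : V => ofVec (y.1 : EuclideanSpace ℝ (CI Q × (Fin n → UI Q)))) (b.sum_repr' ⟨z, hz⟩)
    have hzr : ofVec z = opL P p (v r) := rfl
    simp only [AddSubmonoidClass.coe_finsetSum, Submodule.coe_smul, map_sum, map_smul,
      Submodule.coe_inner] at he
    simp only [← ip_ofVec, hzr] at he
    exact he.symm
  refine ⟨⟨Module.finrank ℝ V, Module.finrank_pos, v, fun r => (hvm r).1.1, fun r => (hvm r).1.2,
    horth, lam, ?_, fun s r => ip (v s) (opF (v r)), fun r => ?_, fun r => ?_⟩, hlt⟩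
  · have : ∀ r, Wform (v r) = lam := fun r => by
      rw [← Bs_self, (hvm r).2 _ (hvm r).1, horth, if_pos rfl, mul_one]
    simp [this]
  · exact hdt (inter_down (by omega)) (inter_up (by omega)) r
  · refine (hdt (inter_up (by omega)) (by simpa using inter_down (by omega)) r).trans ?_
    refine Finset.sum_congr rfl fun s _ => congrArg (· • v s) ?_
    show ip (v s) (opL (down (2 * Q - 2))ᵀ (down Q)ᵀ (v r)) = ip (v r) (opF (v s))
    rw [← ip_opL, ip_comm]
    rfl

end

end Vale.Agent.P359.Gap
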