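import Vale.Agent.P359.Gap.Sphere

/-!
# P359 gap, module Bottom: the bottom family and its partial traces

`Data` is an orthonormal family of states, closed under total lowering and raising, of mean energy
`lam`; its partial traces, divided by the trace per level of the centre, are the marginals.
-/

namespace Vale.Agent.P359.Gap

open Matrix Finset Function

noncomputable section

variable {Q n : ℕ}

/-- A sum of one site operators. -/
def opL (P : Matrix (CI Q) (CI Q) ℝ) (p : Matrix (UI Q) (UI Q) ℝ) (χ : St Q n) : St Q n :=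
  fun C x => (∑ C' : CI Q, P C C' * χ C' x) + ∑ k, ∑ a : UI Q, p (x k) a * χ C (update x k a)

/-- Total lowering. -/
def opF (χ : St Q n) : St Q n := opL (down (2 * Q - 2)) (down Q) χ

/-- Total raising. -/
def opE (χ : St Q n) : St Q n := opL (down (2 * Q - 2))ᵀ (down Q)ᵀ χ

/-- The operator of the quadratic form. -/
def Wop (χ : St Q n) : St Q n := fun C x =>
  (∑ k : Fin n, ∑ j : CI Q × UI Q, Kmat Q (C, x k) j * χ j.1 (update x k j.2)) +
  ∑ k : Fin n, ∑ l : Fin n, if k < l then
    ∑ c, ∑ d, Pr Q (x k) (x l) c d * χ C (update (update x k c) l d) else 0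

/-- The inner product of states. -/
def ip (χ η : St Q n) : ℝ := ∑ C, ∑ x, χ C x * η C x

/-- A bottom family. -/
structure Data (Q n : ℕ) where
  d : ℕ
  d_pos : 0 < d
  v : Fin d → St Q n
  anti : ∀ r, Anti (v r)
  vanish : ∀ r, Vanish (v r)
  orth : ∀ r s, ip (v r) (v s) = if r = s then 1 else 0
  lam : ℝ
  en : ∑ r, Wform (v r) = d * lam
  A : Fin d → Fin d → ℝ
  lowers : ∀ r, opF (v r) = ∑ s, A s r • v s
  raises : ∀ r, opE (v r) = ∑ s, A r s • v s

namespace Data

variable (D : Data Q n)

/-- The trace per level of the centre. -/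
def centre : ℝ := (D.d : ℝ) / (2 * (Q : ℝ) - 1)

/-- The trace over all particles. -/
def m0 : Matrix (CI Q) (CI Q) ℝ := fun C C' => ∑ r, ∑ x, D.v r C x * D.v r C' x

/-- The trace over all particles but one. -/
def m1 : Matrix (CI Q × UI Q) (CI Q × UI Q) ℝ :=
  fun i j => ∑ r, ∑ k, ∑ x : Fin n → UI Q,
    if x k = i.2 then D.v r i.1 x * D.v r j.1 (update x k j.2) else 0

/-- The trace over all particles but an ordered pair. -/
def m2 : Matrix (CI Q × UI Q × UI Q) (CI Q × UI Q × UI Q) ℝ :=
  fun i j => ∑ r, ∑ k, ∑ l, if k ≠ l then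
    ∑ x : Fin n → UI Q, if x k = i.2.1 ∧ x l = i.2.2 then
      D.v r i.1 x * D.v r j.1 (update (update x k j.2.1) l j.2.2) else 0
    else 0

/-- The one particle marginal. -/
def g1 : Matrix (CI Q × UI Q) (CI Q × UI Q) ℝ := D.centre⁻¹ • D.m1

/-- The two particle marginal. -/
def g2 : Matrix (CI Q × UI Q × UI Q) (CI Q × UI Q × UI Q) ℝ := D.centre⁻¹ • D.m2

lemma centre_pos (hQ : 2 ≤ Q) : 0 < D.centre := by
  have h : (2 : ℝ) ≤ Q := by exact_mod_cast hQ
  exact div_pos (by exact_mod_cast D.d_pos) (by linarith)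

end Data

end

end Vale.Agent.P359.Gap
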