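import Vale.Agent.P359.Gap.Bottom.Defs

/-!
# P359 gap, module Bottom: positivity, Pauli bounds and energy of the partial traces
-/

namespace Vale.Agent.P359.Gap

open Matrix Finset Function

noncomputable section

variable {Q n : ℕ}

/-! ### Sums over configurations -/

/-- Exchanging one entry with a free variable. -/
lemma sum_update_swap {α : Type} [Fintype α] [DecidableEq α] (k : Fin n)
    (f : (Fin n → α) → α → ℝ) :
    ∑ x : Fin n → α, ∑ a, f (update x k a) (x k) = ∑ x : Fin n → α, ∑ a, f x a := by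
  rw [← Fintype.sum_prod_type', ← Fintype.sum_prod_type']
  refine Fintype.sum_equiv (Function.Involutive.toPerm
    (fun p : (Fin n → α) × α => (update p.1 k p.2, p.1 k)) fun p => ?_) _ _ fun p => rfl
  simp

/-- The sum over one entry. -/
def fib {α : Type} [Fintype α] (k : Fin n) (f : (Fin n → α) → ℝ) (x : Fin n → α) : ℝ :=
  ∑ a, f (update x k a)

lemma sum_mul_fib {α : Type} [Fintype α] [DecidableEq α] (k : Fin n) (f g : (Fin n → α) → ℝ) :
    ∑ x, f x * fib k g x = ∑ x, fib k f x * g x := by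
  simp only [fib, Finset.mul_sum, Finset.sum_mul]
  rw [← sum_update_swap k fun x a => f x * g (update x k a)]
  simp

lemma fib_fib {α : Type} [Fintype α] (k : Fin n) (f : (Fin n → α) → ℝ) (x : Fin n → α) :
    fib k (fib k f) x = Fintype.card α * fib k f x := by
  simp [fib]

lemma fib_comm {α : Type} [Fintype α] {k l : Fin n} (h : k ≠ l) (f : (Fin n → α) → ℝ)
    (x : Fin n → α) : fib k (fib l f) x = fib l (fib k f) x := by
  simp only [fib]
  rw [Finset.sum_comm]
  simp only [update_comm h]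

lemma fib_of_inv {α : Type} [Fintype α] (k : Fin n) {f : (Fin n → α) → ℝ}
    (h : ∀ x a, f (update x k a) = f x) (x : Fin n → α) :
    fib k f x = Fintype.card α * f x := by
  simp [fib, h]

lemma fib_nonneg {α : Type} [Fintype α] [DecidableEq α] [Nonempty α] (k : Fin n)
    (f : (Fin n → α) → ℝ) : 0 ≤ ∑ x, f x * fib k f x := by
  have h0 : (0 : ℝ) < Fintype.card α := by exact_mod_cast Fintype.card_pos
  have h : 0 ≤ (Fintype.card α : ℝ) * ∑ x, f x * fib k f x := by
    rw [Finset.mul_sum]
    simp only [← mul_assoc, mul_comm _ (f _)]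
    simp only [mul_assoc, ← fib_fib k f, sum_mul_fib k f (fib k f)]
    exact Finset.sum_nonneg fun x _ => mul_self_nonneg _
  exact nonneg_of_mul_nonneg_right h h0

lemma fib₂_nonneg {α : Type} [Fintype α] [DecidableEq α] [Nonempty α] {k l : Fin n} (hkl : k ≠ l)
    (f : (Fin n → α) → ℝ) : 0 ≤ ∑ x, f x * fib k (fib l f) x := by
  have h0 : (0 : ℝ) < (Fintype.card α : ℝ) * Fintype.card α := by
    have : (0 : ℝ) < Fintype.card α := by exact_mod_cast Fintype.card_pos
    positivity
  have e : ∀ g : (Fin n → α) → ℝ,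
      ∑ x, f x * fib k (fib l g) x = ∑ x, fib k (fib l f) x * g x := fun g => by
    rw [sum_mul_fib, sum_mul_fib]
    simp only [fib_comm hkl]
  have hsq : ∀ x, fib k (fib l (fib k (fib l f))) x =
      (Fintype.card α : ℝ) * Fintype.card α * fib k (fib l f) x := by
    intro x
    rw [show fib l (fib k (fib l f)) = fib k (fib l (fib l f)) from
      funext fun y => (fib_comm hkl _ y).symm, fib_fib,
      show fib l (fib l f) = fun y => (Fintype.card α : ℝ) * fib l f y from funext (fib_fib l f)]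
    simp only [fib, ← Finset.mul_sum]
    ring
  have h : 0 ≤ (Fintype.card α : ℝ) * Fintype.card α * ∑ x, f x * fib k (fib l f) x := by
    rw [Finset.mul_sum, show ∀ g : (Fin n → α) → ℝ,
      (∑ x, (Fintype.card α : ℝ) * Fintype.card α * (f x * g x)) =
        ∑ x, f x * ((Fintype.card α : ℝ) * Fintype.card α * g x) from
      fun g => Finset.sum_congr rfl fun x _ => by ring]
    simp only [← hsq]
    rw [e]
    exact Finset.sum_nonneg fun x _ => mul_self_nonneg _
  exact nonneg_of_mul_nonneg_right h h0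

/-- Rotating three sums. -/
lemma sum_rot {α β γ : Type*} [Fintype α] [Fintype β] [Fintype γ] (f : α → β → γ → ℝ) :
    ∑ i, ∑ j, ∑ r, f i j r = ∑ r, ∑ i, ∑ j, f i j r :=
  (Finset.sum_congr rfl fun _ _ => Finset.sum_comm).trans Finset.sum_comm

/-! ### Antisymmetry -/

lemma Anti.swap {χ : St Q n} (h : Anti χ) {k l : Fin n} (hkl : k ≠ l) (C : CI Q)
    (x : Fin n → UI Q) : χ C (x ∘ Equiv.swap k l) = -χ C x := by
  simp [h (Equiv.swap k l) C x, Equiv.Perm.sign_swap hkl]

lemma Anti.eq_zero {χ : St Q n} (h : Anti χ) {k l : Fin n} (hkl : k ≠ l) {C : CI Q}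
    {x : Fin n → UI Q} (hx : x k = x l) : χ C x = 0 := by
  have hs : x ∘ Equiv.swap k l = x := by
    funext i
    simp only [Function.comp_apply, Equiv.swap_apply_def]
    split_ifs with h1 h2
    · rw [h1]; exact hx.symm
    · rw [h2]; exact hx
    · rfl
  have := h.swap hkl C x
  rw [hs] at this
  linarith

lemma update_swap {α : Type} [DecidableEq α] {k l : Fin n} (hkl : k ≠ l) (x : Fin n → α) (c d : α) :
    update (update (x ∘ Equiv.swap k l) k c) l d = update (update x k c) l d := by
  funext i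
  by_cases hl : i = l
  · subst hl; simp
  by_cases hk : i = k
  · subst hk; simp [hl]
  · simp [hl, hk, Equiv.swap_apply_of_ne_of_ne hk hl]

/-- The part of an antisymmetrisation of a function antisymmetric in all but one variable. -/
lemma hole_nonneg {α : Type} [Fintype α] [DecidableEq α] (F : α → (Fin n → α) → ℝ)
    (hF : ∀ y x, ∀ k l : Fin n, k ≠ l → F y (x ∘ Equiv.swap k l) = -F y x) :
    0 ≤ ∑ x, ∑ y, F y x * (F y x - ∑ k, F (x k) (update x k y)) := by
  set G : α → (Fin n → α) → ℝ := fun y x => F y x - ∑ k, F (x k) (update x k y) with hG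
  have hflip : ∀ y x k, G (x k) (update x k y) = -G y x := by
    intro y x k
    have hterm : ∀ l ∈ univ.erase k,
        F (update x k y l) (update (update x k y) l (x k)) = -F (x l) (update x l y) := by
      intro l hl
      have hlk : l ≠ k := Finset.ne_of_mem_erase hl
      rw [update_of_ne hlk, ← hF (x l) (update x l y) k l hlk.symm]
      congr 1
      funext i
      by_cases hi : i = l
      · subst hi; simp [hlk.symm]
      by_cases hik : i = k
      · subst hik; simp [hi]
      · simp [hi, hik, Equiv.swap_apply_of_ne_of_ne hik hi]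
    simp only [hG]
    rw [← Finset.add_sum_erase _ _ (mem_univ k), Finset.sum_congr rfl hterm,
      ← Finset.add_sum_erase (f := fun i => F (x i) (update x i y)) _ (mem_univ k)]
    simp only [update_self, update_idem, update_eq_self, Finset.sum_neg_distrib]
    ring
  have key : ∑ x, ∑ y, G y x * G y x = ((n : ℝ) + 1) * ∑ x, ∑ y, F y x * G y x := by
    have h1 : ∀ k, ∑ x, ∑ y, G y x * F (x k) (update x k y) = -∑ x, ∑ y, F y x * G y x := by
      intro k
      rw [← sum_update_swap k fun x y => G y x * F (x k) (update x k y), ← Finset.sum_neg_distrib]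
      refine Finset.sum_congr rfl fun x _ => ?_
      rw [← Finset.sum_neg_distrib]
      refine Finset.sum_congr rfl fun y _ => ?_
      simp only [update_self, update_idem, update_eq_self, hflip]
      ring
    calc ∑ x, ∑ y, G y x * G y x
        = ∑ x, ∑ y, G y x * F y x - ∑ x, ∑ y, ∑ k, G y x * F (x k) (update x k y) := by
          simp only [← Finset.sum_sub_distrib]
          refine Finset.sum_congr rfl fun x _ => Finset.sum_congr rfl fun y _ => ?_
          rw [← Finset.mul_sum, ← mul_sub]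
      _ = ∑ x, ∑ y, F y x * G y x - ∑ k, ∑ x, ∑ y, G y x * F (x k) (update x k y) := by
          congr 1
          · exact Finset.sum_congr rfl fun x _ => Finset.sum_congr rfl fun y _ => mul_comm _ _
          · rw [Finset.sum_congr rfl fun x _ => Finset.sum_comm]
            exact Finset.sum_comm
      _ = _ := by
          simp only [h1, Finset.sum_const, card_univ, Fintype.card_fin, nsmul_eq_mul]
          ring
  refine nonneg_of_mul_nonneg_right (a := (n : ℝ) + 1) ?_ (by positivity)
  rw [← key]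
  exact Finset.sum_nonneg fun x _ => Finset.sum_nonneg fun y _ => mul_self_nonneg _

lemma pc_exchange (C : CI Q) (a b : UI Q) : pc Q C b a = -pc Q C a b := by
  unfold pc
  by_cases h : (a : ℕ) + (b : ℕ) = (C : ℕ) + 1
  · rw [if_pos h, if_pos (by omega), mul_comm (Q.choose b : ℝ) (Q.choose a : ℝ)]
    ring
  · rw [if_neg h, if_neg (by omega), neg_zero]

lemma Pr_exchange (a b c d : UI Q) : Pr Q b a d c = Pr Q a b c d := by
  simp only [Pr, pc_exchange _ a b, pc_exchange _ c d, neg_mul_neg]

/-- A symmetric sum over ordered pairs is twice the sum over pairs. -/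
lemma sum_ne_eq_two_mul (f : Fin n → Fin n → ℝ) (h : ∀ k l, k ≠ l → f k l = f l k) :
    (∑ k, ∑ l, if k ≠ l then f k l else 0) = 2 * ∑ k, ∑ l, if k < l then f k l else 0 := by
  have h1 : ∀ k l : Fin n, (if k ≠ l then f k l else 0) =
      (if k < l then f k l else 0) + if l < k then f l k else 0 := by
    intro k l
    rcases lt_trichotomy k l with hkl | hkl | hkl
    · simp [hkl, hkl.ne, hkl.not_gt]
    · simp [hkl]
    · simp [hkl, hkl.ne', hkl.not_gt, h k l hkl.ne']
  simp only [h1, Finset.sum_add_distrib]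
  rw [Finset.sum_comm (f := fun k l : Fin n => if l < k then f l k else 0)]
  ring

namespace Data

variable (D : Data Q n)

/-! ### Contractions -/

/-- A form paired with the trace over all particles. -/
lemma m0_pair (f : CI Q → CI Q → ℝ) :
    ∑ C, ∑ C', f C C' * D.m0 C C' =
      ∑ r, ∑ x, ∑ C, ∑ C', f C C' * (D.v r C x * D.v r C' x) := by
  simp only [m0, Finset.mul_sum]
  rw [sum_rot]
  exact Finset.sum_congr rfl fun r _ => sum_rot _

/-- A form paired with the one particle trace. -/
lemma m1_pair (f : CI Q × UI Q → CI Q × UI Q → ℝ) :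
    ∑ i, ∑ j, f i j * D.m1 i j =
      ∑ r, ∑ k, ∑ x : Fin n → UI Q, ∑ C, ∑ j : CI Q × UI Q,
        f (C, x k) j * (D.v r C x * D.v r j.1 (update x k j.2)) := by
  simp only [m1, Finset.mul_sum, mul_ite, mul_zero]
  rw [sum_rot]
  refine Finset.sum_congr rfl fun r _ => ?_
  rw [sum_rot]
  refine Finset.sum_congr rfl fun k _ => ?_
  rw [sum_rot]
  refine Finset.sum_congr rfl fun x _ => ?_
  rw [Fintype.sum_prod_type]
  refine Finset.sum_congr rfl fun C _ => ?_
  rw [Finset.sum_comm]
  refine Finset.sum_congr rfl fun j _ => ?_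
  simp

/-- A form paired with the two particle trace. -/
lemma m2_pair (f : CI Q × UI Q × UI Q → CI Q × UI Q × UI Q → ℝ) :
    ∑ i, ∑ j, f i j * D.m2 i j =
      ∑ r, ∑ k, ∑ l, if k ≠ l then ∑ x : Fin n → UI Q, ∑ C, ∑ j : CI Q × UI Q × UI Q,
        f (C, x k, x l) j * (D.v r C x * D.v r j.1 (update (update x k j.2.1) l j.2.2))
      else 0 := by
  simp only [m2, Finset.mul_sum]
  rw [sum_rot]
  refine Finset.sum_congr rfl fun r _ => ?_
  rw [sum_rot]
  refine Finset.sum_congr rfl fun k _ => ?_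
  rw [sum_rot]
  refine Finset.sum_congr rfl fun l _ => ?_
  by_cases hkl : k = l
  · simp [hkl]
  simp only [ne_eq, hkl, not_false_eq_true, if_true, Finset.mul_sum, mul_ite, mul_zero]
  rw [sum_rot]
  refine Finset.sum_congr rfl fun x _ => ?_
  rw [Fintype.sum_prod_type]
  refine Finset.sum_congr rfl fun C _ => ?_
  rw [Finset.sum_comm]
  refine Finset.sum_congr rfl fun j _ => ?_
  simp only [Fintype.sum_prod_type, ite_and]
  simp

lemma quad_m1 (w : CI Q × UI Q → ℝ) :
    w ⬝ᵥ (D.m1 *ᵥ w) = ∑ i, ∑ j, w i * w j * D.m1 i j := by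
  simp only [dotProduct, mulVec, Finset.mul_sum]
  exact Finset.sum_congr rfl fun i _ => Finset.sum_congr rfl fun j _ => by ring

lemma quad_m2 (w : CI Q × UI Q × UI Q → ℝ) :
    w ⬝ᵥ (D.m2 *ᵥ w) = ∑ i, ∑ j, w i * w j * D.m2 i j := by
  simp only [dotProduct, mulVec, Finset.mul_sum]
  exact Finset.sum_congr rfl fun i _ => Finset.sum_congr rfl fun j _ => by ring

/-! ### Positivity -/

variable {D}

lemma psd1 (hQ : 2 ≤ Q) (w : CI Q × UI Q → ℝ) : 0 ≤ w ⬝ᵥ (D.g1 *ᵥ w) := by
  rw [g1, smul_mulVec, dotProduct_smul, smul_eq_mul, quad_m1, m1_pair]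
  refine mul_nonneg (inv_nonneg.2 (D.centre_pos hQ).le)
    (Finset.sum_nonneg fun r _ => Finset.sum_nonneg fun k _ => ?_)
  refine le_of_le_of_eq (fib_nonneg k fun x => ∑ C, w (C, x k) * D.v r C x) ?_
  refine Finset.sum_congr rfl fun x _ => ?_
  rw [Finset.sum_mul]
  refine Finset.sum_congr rfl fun C _ => ?_
  simp only [fib, update_self]
  rw [Finset.sum_comm, Fintype.sum_prod_type, Finset.mul_sum]
  refine Finset.sum_congr rfl fun C' _ => ?_
  rw [Finset.mul_sum]
  exact Finset.sum_congr rfl fun a _ => by ring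

lemma psd2 (hQ : 2 ≤ Q) (w : CI Q × UI Q × UI Q → ℝ) : 0 ≤ w ⬝ᵥ (D.g2 *ᵥ w) := by
  rw [g2, smul_mulVec, dotProduct_smul, smul_eq_mul, quad_m2, m2_pair]
  refine mul_nonneg (inv_nonneg.2 (D.centre_pos hQ).le)
    (Finset.sum_nonneg fun r _ => Finset.sum_nonneg fun k _ => Finset.sum_nonneg fun l _ => ?_)
  by_cases hkl : k = l
  · simp [hkl]
  rw [if_pos hkl]
  refine le_of_le_of_eq (fib₂_nonneg hkl fun x => ∑ C, w (C, x k, x l) * D.v r C x) ?_
  refine Finset.sum_congr rfl fun x _ => ?_
  rw [Finset.sum_mul]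
  refine Finset.sum_congr rfl fun C _ => ?_
  simp only [fib, update_self, update_of_ne hkl]
  rw [Fintype.sum_prod_type, Finset.mul_sum]
  conv_lhs => enter [2, a]; rw [Finset.sum_comm, Finset.mul_sum]
  rw [Finset.sum_comm]
  refine Finset.sum_congr rfl fun C' _ => ?_
  rw [Fintype.sum_prod_type]
  refine Finset.sum_congr rfl fun a _ => ?_
  rw [Finset.mul_sum]
  exact Finset.sum_congr rfl fun b _ => by ring

lemma m2_swap (C : CI Q) (a b : UI Q) (y : CI Q × UI Q × UI Q) :
    D.m2 (C, a, b) y = -D.m2 (C, b, a) y := by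
  simp only [m2, ← Finset.sum_neg_distrib]
  refine Finset.sum_congr rfl fun r _ => Finset.sum_congr rfl fun k _ =>
    Finset.sum_congr rfl fun l _ => ?_
  by_cases hkl : k = l
  · simp [hkl]
  simp only [ne_eq, hkl, not_false_eq_true, if_true, ← Finset.sum_neg_distrib]
  refine Fintype.sum_equiv ((Equiv.swap k l).arrowCongr (Equiv.refl _)) _ _ fun x => ?_
  have hx : ((Equiv.swap k l).arrowCongr (Equiv.refl (UI Q))) x = x ∘ Equiv.swap k l := by
    funext i; simp
  rw [hx, (D.anti r).swap hkl, update_swap hkl]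
  simp only [Function.comp_apply, Equiv.swap_apply_left, Equiv.swap_apply_right, neg_mul]
  by_cases h : x k = a ∧ x l = b
  · rw [if_pos h, if_pos ⟨h.2, h.1⟩, neg_neg]
  · rw [if_neg h, if_neg fun h' => h ⟨h'.2, h'.1⟩, neg_zero]

lemma anti_g2 (C : CI Q) (a b : UI Q) (y : CI Q × UI Q × UI Q) :
    D.g2 (C, a, b) y = -D.g2 (C, b, a) y := by
  simp [g2, Matrix.smul_apply, m2_swap C a b y]

lemma m1_diag_le (i : CI Q × UI Q) : D.m1 i i ≤ D.m0 i.1 i.1 := by
  simp only [m1, m0]
  refine Finset.sum_le_sum fun r _ => ?_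
  rw [Finset.sum_comm]
  refine Finset.sum_le_sum fun x _ => ?_
  by_cases hv : D.v r i.1 x = 0
  · simp [hv]
  rcases (univ.filter fun k => x k = i.2).eq_empty_or_nonempty with he | ⟨k, hk⟩
  · rw [Finset.sum_eq_zero fun k _ => if_neg fun h => by
      have : k ∈ univ.filter fun k => x k = i.2 := mem_filter.2 ⟨mem_univ _, h⟩
      rw [he] at this
      simp at this]
    exact mul_self_nonneg _
  have hk' : x k = i.2 := (mem_filter.1 hk).2
  rw [Finset.sum_eq_single k (fun l _ hlk => if_neg fun h =>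
    hv ((D.anti r).eq_zero hlk (h.trans hk'.symm))) (by simp), if_pos hk', ← hk', update_eq_self]

lemma m2_diag_le (i : CI Q × UI Q × UI Q) : D.m2 i i ≤ D.m0 i.1 i.1 := by
  simp only [m2, m0]
  refine Finset.sum_le_sum fun r _ => ?_
  have e : ∀ k l : Fin n, (if k ≠ l then ∑ x : Fin n → UI Q,
      (if x k = i.2.1 ∧ x l = i.2.2 then
        D.v r i.1 x * D.v r i.1 (update (update x k i.2.1) l i.2.2) else 0) else 0) =
      ∑ x : Fin n → UI Q, if k ≠ l ∧ x k = i.2.1 ∧ x l = i.2.2 then
        D.v r i.1 x * D.v r i.1 x else 0 := by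
    intro k l
    by_cases hkl : k = l
    · simp [hkl]
    simp only [ne_eq, hkl, not_false_eq_true, if_true, true_and]
    refine Finset.sum_congr rfl fun x _ => ?_
    split_ifs with h
    · rw [← h.1, ← h.2, update_eq_self, update_eq_self]
    · rfl
  simp only [e]
  rw [sum_rot]
  refine Finset.sum_le_sum fun x _ => ?_
  rw [← Finset.sum_product']
  by_cases hv : D.v r i.1 x = 0
  · simp [hv]
  rw [← Finset.sum_filter, Finset.sum_const, nsmul_eq_mul]
  refine mul_le_of_le_one_left (mul_self_nonneg _) ?_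
  rw [Nat.cast_le_one, Finset.card_le_one]
  intro p hp q hq
  obtain ⟨-, h1, h2⟩ := (mem_filter.1 hp).2
  obtain ⟨-, h3, h4⟩ := (mem_filter.1 hq).2
  refine Prod.ext ?_ ?_
  · by_contra hne
    exact hv ((D.anti r).eq_zero hne (h1.trans h3.symm))
  · by_contra hne
    exact hv ((D.anti r).eq_zero hne (h2.trans h4.symm))

lemma diag1 (hQ : 2 ≤ Q) (hm : D.m0 = D.centre • 1) (i : CI Q × UI Q) : D.g1 i i ≤ 1 := by
  have h := D.centre_pos hQ
  rw [g1, Matrix.smul_apply, smul_eq_mul, inv_mul_le_iff₀ h, mul_one]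
  exact (m1_diag_le i).trans (by simp [hm])

lemma diag2 (hQ : 2 ≤ Q) (hm : D.m0 = D.centre • 1) (i : CI Q × UI Q × UI Q) :
    D.g2 i i ≤ 1 := by
  have h := D.centre_pos hQ
  rw [g2, Matrix.smul_apply, smul_eq_mul, inv_mul_le_iff₀ h, mul_one]
  exact (m2_diag_le i).trans (by simp [hm])

lemma vanish_g1 (v : CI Q × UI Q → ℝ) (hv : Kmat Q *ᵥ v = -v) : D.g1 *ᵥ v = 0 := by
  rw [g1, smul_mulVec]
  refine smul_eq_zero_of_right _ (funext fun i => ?_)
  simp only [mulVec, dotProduct, m1, Finset.sum_mul, ite_mul, zero_mul, Pi.zero_apply]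
  rw [Finset.sum_comm]
  refine Finset.sum_eq_zero fun r _ => ?_
  rw [Finset.sum_comm]
  refine Finset.sum_eq_zero fun k _ => ?_
  rw [Finset.sum_comm]
  refine Finset.sum_eq_zero fun x _ => ?_
  by_cases h : x k = i.2
  · simp only [if_pos h, mul_assoc, ← Finset.mul_sum]
    refine mul_eq_zero_of_right _ ?_
    rw [← D.vanish r v hv k x]
    exact Finset.sum_congr rfl fun j _ => mul_comm _ _
  · simp [if_neg h]

lemma vanish_g2 (v : CI Q × UI Q → ℝ) (hv : Kmat Q *ᵥ v = -v) (b : UI Q)
    (y : CI Q × UI Q × UI Q) : ∑ i, v i * D.g2 (i.1, i.2, b) y = 0 := by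
  simp only [g2, Matrix.smul_apply, smul_eq_mul, mul_left_comm (v _)]
  rw [← Finset.mul_sum]
  refine mul_eq_zero_of_right _ ?_
  simp only [m2, Finset.mul_sum]
  rw [Finset.sum_comm]
  refine Finset.sum_eq_zero fun r _ => ?_
  rw [Finset.sum_comm]
  refine Finset.sum_eq_zero fun k _ => ?_
  rw [Finset.sum_comm]
  refine Finset.sum_eq_zero fun l _ => ?_
  by_cases hkl : k = l
  · simp [hkl]
  simp only [ne_eq, hkl, not_false_eq_true, if_true, Finset.mul_sum, mul_ite, mul_zero]
  rw [Finset.sum_comm]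
  let R : (Fin n → UI Q) → ℝ := fun x =>
    if x l = b then D.v r y.1 (update (update x k y.2.1) l y.2.2) else 0
  have hR : ∀ x a, R (update x k a) = R x := fun x a => by
    simp [R, update_of_ne (Ne.symm hkl), update_idem]
  have hsum : ∀ x, (∑ i : CI Q × UI Q, if x k = i.2 ∧ x l = b then
      v i * (D.v r i.1 x * D.v r y.1 (update (update x k y.2.1) l y.2.2)) else 0) =
      (∑ C, v (C, x k) * D.v r C x) * R x := by
    intro x
    rw [Fintype.sum_prod_type, Finset.sum_mul]
    refine Finset.sum_congr rfl fun C _ => ?_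
    by_cases hb : x l = b
    · simp [R, hb, mul_assoc]
    · simp [R, hb]
  simp only [hsum]
  have h0 : (Fintype.card (UI Q) : ℝ) ≠ 0 := Nat.cast_ne_zero.2 Fintype.card_ne_zero
  refine ((mul_eq_zero (a := (Fintype.card (UI Q) : ℝ))).1 ?_).resolve_left h0
  rw [Finset.mul_sum]
  simp only [mul_left_comm (Fintype.card (UI Q) : ℝ), ← fib_of_inv k hR]
  rw [sum_mul_fib]
  refine Finset.sum_eq_zero fun x _ => mul_eq_zero_of_left ?_ _
  simp only [fib, update_self]
  rw [Finset.sum_comm, ← Fintype.sum_prod_type']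
  exact D.vanish r v hv k x

lemma m0_diag (hm : D.m0 = D.centre • 1) (f : CI Q → CI Q → ℝ) :
    D.centre * ∑ C, f C C = ∑ C, ∑ C', f C C' * D.m0 C C' := by
  simp [hm, Matrix.one_apply, Finset.mul_sum, mul_comm]

lemma hole_g1 (hQ : 2 ≤ Q) (hm : D.m0 = D.centre • 1) (ξ : CI Q → UI Q → ℝ) :
    0 ≤ (∑ C, ∑ j, ξ C j ^ 2) -
      ∑ C, ∑ j, ∑ C', ∑ j', ξ C j * ξ C' j' * D.g1 (C, j') (C', j) := by
  have hc := D.centre_pos hQ
  refine nonneg_of_mul_nonneg_right (a := D.centre) ?_ hc
  have e1 : D.centre * (∑ C, ∑ j, ξ C j ^ 2) =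
      ∑ r, ∑ x, ∑ y, (∑ C, ξ C y * D.v r C x) ^ 2 := by
    refine Eq.trans (by simp [sq]) ((m0_diag hm fun C C' => ∑ j, ξ C j * ξ C' j).trans
      ((D.m0_pair _).trans ?_))
    refine Finset.sum_congr rfl fun r _ => Finset.sum_congr rfl fun x _ => ?_
    simp only [sq, Finset.sum_mul_sum]
    simp only [Finset.sum_mul]
    rw [sum_rot]
    exact Finset.sum_congr rfl fun y _ => Finset.sum_congr rfl fun C _ =>
      Finset.sum_congr rfl fun C' _ => by ring
  have e2 : D.centre * (∑ C, ∑ j, ∑ C', ∑ j', ξ C j * ξ C' j' * D.g1 (C, j') (C', j)) =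
      ∑ r, ∑ k, ∑ x : Fin n → UI Q, ∑ y,
        (∑ C, ξ C y * D.v r C x) * ∑ C', ξ C' (x k) * D.v r C' (update x k y) := by
    calc D.centre * (∑ C, ∑ j, ∑ C', ∑ j', ξ C j * ξ C' j' * D.g1 (C, j') (C', j))
        = ∑ i : CI Q × UI Q, ∑ j : CI Q × UI Q, ξ i.1 j.2 * ξ j.1 i.2 * D.m1 i j := by
          simp only [Fintype.sum_prod_type, Finset.mul_sum]
          refine Finset.sum_congr rfl fun C _ => ?_
          rw [sum_rot]
          refine Finset.sum_congr rfl fun a _ => ?_
          rw [Finset.sum_comm]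
          refine Finset.sum_congr rfl fun C' _ => Finset.sum_congr rfl fun j _ => ?_
          simp only [g1, Matrix.smul_apply, smul_eq_mul]
          field_simp
      _ = _ := by
          rw [m1_pair]
          refine Finset.sum_congr rfl fun r _ => Finset.sum_congr rfl fun k _ =>
            Finset.sum_congr rfl fun x _ => ?_
          simp only [Fintype.sum_prod_type, Finset.sum_mul_sum]
          rw [sum_rot]
          exact Finset.sum_congr rfl fun y _ => Finset.sum_congr rfl fun C _ =>
            Finset.sum_congr rfl fun C' _ => by ring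
  rw [mul_sub, e1, e2, ← Finset.sum_sub_distrib]
  refine Finset.sum_nonneg fun r _ => ?_
  refine le_of_le_of_eq (hole_nonneg (fun y x => ∑ C, ξ C y * D.v r C x) fun y x k l hkl => ?_) ?_
  · simp [(D.anti r).swap hkl]
  · simp only [mul_sub, Finset.sum_sub_distrib, sq, Finset.mul_sum (s := (univ : Finset (Fin n)))]
    rw [sum_rot]

lemma sum_m1_u (r : Fin D.d) (k : Fin n) (u : CI Q → ℝ) (φ : CI Q → UI Q → UI Q → ℝ) :
    ∑ x : Fin n → UI Q, ∑ C, ∑ j : CI Q × UI Q,
      φ C (x k) j.2 * u j.1 * (D.v r C x * D.v r j.1 (update x k j.2)) =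
    ∑ x : Fin n → UI Q, (∑ C, ∑ a, φ C a (x k) * D.v r C (update x k a)) *
      ∑ C, u C * D.v r C x := by
  calc ∑ x : Fin n → UI Q, ∑ C, ∑ j : CI Q × UI Q,
      φ C (x k) j.2 * u j.1 * (D.v r C x * D.v r j.1 (update x k j.2))
      = ∑ x : Fin n → UI Q, ∑ a,
          (∑ C, φ C (x k) a * D.v r C x) * ∑ C, u C * D.v r C (update x k a) := by
        refine Finset.sum_congr rfl fun x _ => ?_
        simp only [Fintype.sum_prod_type, Finset.sum_mul_sum]
        rw [sum_rot]
        exact Finset.sum_congr rfl fun a _ => Finset.sum_congr rfl fun C _ =>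
          Finset.sum_congr rfl fun C' _ => by ring
    _ = _ := by
        rw [← sum_update_swap k fun x a =>
          (∑ C, φ C (x k) a * D.v r C x) * ∑ C, u C * D.v r C (update x k a)]
        refine Finset.sum_congr rfl fun x _ => ?_
        simp only [update_self, update_idem, update_eq_self, ← Finset.sum_mul]
        rw [Finset.sum_comm]

lemma sum_m1_sq (r : Fin D.d) (k : Fin n) (φ : CI Q → UI Q → UI Q → ℝ) :
    ∑ x : Fin n → UI Q, ∑ C, ∑ j : CI Q × UI Q,
      (∑ y, φ C (x k) y * φ j.1 j.2 y) * (D.v r C x * D.v r j.1 (update x k j.2)) =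
    ∑ x : Fin n → UI Q, (∑ C, ∑ a, φ C a (x k) * D.v r C (update x k a)) *
      ∑ C, ∑ a, φ C a (x k) * D.v r C (update x k a) := by
  calc ∑ x : Fin n → UI Q, ∑ C, ∑ j : CI Q × UI Q,
      (∑ y, φ C (x k) y * φ j.1 j.2 y) * (D.v r C x * D.v r j.1 (update x k j.2))
      = ∑ x : Fin n → UI Q, ∑ y, (∑ C, φ C (x k) y * D.v r C x) *
          ∑ j : CI Q × UI Q, φ j.1 j.2 y * D.v r j.1 (update x k j.2) := by
        refine Finset.sum_congr rfl fun x _ => ?_
        simp only [Finset.sum_mul_sum]
        simp only [Finset.sum_mul]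
        rw [sum_rot]
        exact Finset.sum_congr rfl fun a _ => Finset.sum_congr rfl fun C _ =>
          Finset.sum_congr rfl fun C' _ => by ring
    _ = _ := by
        rw [← sum_update_swap k fun x y => (∑ C, φ C (x k) y * D.v r C x) *
          ∑ j : CI Q × UI Q, φ j.1 j.2 y * D.v r j.1 (update x k j.2)]
        refine Finset.sum_congr rfl fun x _ => ?_
        simp only [update_self, update_idem, update_eq_self, ← Finset.sum_mul,
          Fintype.sum_prod_type]
        rw [Finset.sum_comm]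

lemma sum_m2_sq (r : Fin D.d) {k l : Fin n} (hkl : k ≠ l) (φ : CI Q → UI Q → UI Q → ℝ) :
    ∑ x : Fin n → UI Q, ∑ C, ∑ j : CI Q × UI Q × UI Q,
      φ C (x k) j.2.1 * φ j.1 j.2.2 (x l) *
        (D.v r C x * D.v r j.1 (update (update x k j.2.1) l j.2.2)) =
    ∑ x : Fin n → UI Q, (∑ C, ∑ a, φ C a (x k) * D.v r C (update x k a)) *
      ∑ C, ∑ a, φ C a (x l) * D.v r C (update x l a) := by
  calc ∑ x : Fin n → UI Q, ∑ C, ∑ j : CI Q × UI Q × UI Q,
      φ C (x k) j.2.1 * φ j.1 j.2.2 (x l) *
        (D.v r C x * D.v r j.1 (update (update x k j.2.1) l j.2.2))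
      = ∑ x : Fin n → UI Q, ∑ y, (∑ C, φ C (x k) y * D.v r C x) *
          ∑ C, ∑ a, φ C a (x l) * D.v r C (update (update x k y) l a) := by
        refine Finset.sum_congr rfl fun x _ => ?_
        simp only [Fintype.sum_prod_type, Finset.sum_mul_sum]
        simp only [Finset.mul_sum]
        rw [sum_rot]
        exact Finset.sum_congr rfl fun a _ => Finset.sum_congr rfl fun C _ =>
          Finset.sum_congr rfl fun C' _ => Finset.sum_congr rfl fun b _ => by ring
    _ = _ := by
        rw [← sum_update_swap k fun x y => (∑ C, φ C (x k) y * D.v r C x) *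
          ∑ C, ∑ a, φ C a (x l) * D.v r C (update (update x k y) l a)]
        refine Finset.sum_congr rfl fun x _ => ?_
        simp only [update_self, update_idem, update_eq_self, update_of_ne hkl.symm,
          ← Finset.sum_mul]
        rw [Finset.sum_comm]

lemma partHole_g (hQ : 2 ≤ Q) (hm : D.m0 = D.centre • 1) (u : CI Q → ℝ)
    (φ : CI Q → UI Q → UI Q → ℝ) :
    0 ≤ (∑ C, u C ^ 2) + 2 * (∑ C, ∑ a, ∑ j, ∑ C', φ C a j * u C' * D.g1 (C, a) (C', j)) +
      ∑ C, ∑ a, ∑ j, ∑ C', ∑ a', ∑ j', φ C a j * φ C' a' j' *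
        ((if j = j' then D.g1 (C, a) (C', a') else 0) + D.g2 (C, a, j') (C', j, a')) := by
  have hc := D.centre_pos hQ
  refine nonneg_of_mul_nonneg_right (a := D.centre) ?_ hc
  set A : Fin D.d → (Fin n → UI Q) → ℝ := fun r x => ∑ C, u C * D.v r C x
  set B : Fin D.d → Fin n → (Fin n → UI Q) → ℝ := fun r k x =>
    ∑ C, ∑ a, φ C a (x k) * D.v r C (update x k a)
  have e0 : D.centre * (∑ C, u C ^ 2) = ∑ r, ∑ x, A r x * A r x := by
    refine Eq.trans (by simp [sq]) ((m0_diag hm fun C C' => u C * u C').trans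
      ((D.m0_pair _).trans ?_))
    refine Finset.sum_congr rfl fun r _ => Finset.sum_congr rfl fun x _ => ?_
    simp only [A, Finset.sum_mul_sum]
    exact Finset.sum_congr rfl fun C _ => Finset.sum_congr rfl fun C' _ => by ring
  have e1 : D.centre * (∑ C, ∑ a, ∑ j, ∑ C', φ C a j * u C' * D.g1 (C, a) (C', j)) =
      ∑ r, ∑ k, ∑ x, B r k x * A r x := by
    calc D.centre * (∑ C, ∑ a, ∑ j, ∑ C', φ C a j * u C' * D.g1 (C, a) (C', j))
        = ∑ i : CI Q × UI Q, ∑ j : CI Q × UI Q, φ i.1 i.2 j.2 * u j.1 * D.m1 i j := by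
          simp only [Fintype.sum_prod_type, Finset.mul_sum]
          refine Finset.sum_congr rfl fun C _ => Finset.sum_congr rfl fun a _ => ?_
          rw [Finset.sum_comm]
          refine Finset.sum_congr rfl fun C' _ => Finset.sum_congr rfl fun j _ => ?_
          simp only [g1, Matrix.smul_apply, smul_eq_mul]
          field_simp
      _ = _ := by
          rw [m1_pair]
          exact Finset.sum_congr rfl fun r _ => Finset.sum_congr rfl fun k _ => sum_m1_u r k u φ
  have e2 : D.centre * (∑ C, ∑ a, ∑ j, ∑ C', ∑ a', ∑ j', φ C a j * φ C' a' j' *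
        (if j = j' then D.g1 (C, a) (C', a') else 0)) =
      ∑ r, ∑ k, ∑ x, B r k x * B r k x := by
    calc D.centre * (∑ C, ∑ a, ∑ j, ∑ C', ∑ a', ∑ j', φ C a j * φ C' a' j' *
        (if j = j' then D.g1 (C, a) (C', a') else 0))
        = ∑ i : CI Q × UI Q, ∑ j : CI Q × UI Q,
            (∑ y, φ i.1 i.2 y * φ j.1 j.2 y) * D.m1 i j := by
          simp only [Fintype.sum_prod_type, Finset.mul_sum, Finset.sum_mul, mul_ite, mul_zero,
            Finset.sum_ite_eq, mem_univ, if_true]
          refine Finset.sum_congr rfl fun C _ => Finset.sum_congr rfl fun a _ => ?_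
          conv_rhs => rw [sum_rot]
          refine Finset.sum_congr rfl fun j _ => Finset.sum_congr rfl fun C' _ =>
            Finset.sum_congr rfl fun a' _ => ?_
          simp only [g1, Matrix.smul_apply, smul_eq_mul]
          field_simp
      _ = _ := by
          rw [m1_pair]
          exact Finset.sum_congr rfl fun r _ => Finset.sum_congr rfl fun k _ => sum_m1_sq r k φ
  have e3 : D.centre * (∑ C, ∑ a, ∑ j, ∑ C', ∑ a', ∑ j', φ C a j * φ C' a' j' *
        D.g2 (C, a, j') (C', j, a')) =
      ∑ r, ∑ k, ∑ l, if k ≠ l then ∑ x, B r k x * B r l x else 0 := by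
    calc D.centre * (∑ C, ∑ a, ∑ j, ∑ C', ∑ a', ∑ j', φ C a j * φ C' a' j' *
        D.g2 (C, a, j') (C', j, a'))
        = ∑ i : CI Q × UI Q × UI Q, ∑ j : CI Q × UI Q × UI Q,
            φ i.1 i.2.1 j.2.1 * φ j.1 j.2.2 i.2.2 * D.m2 i j := by
          simp only [Fintype.sum_prod_type, Finset.mul_sum]
          refine Finset.sum_congr rfl fun C _ => Finset.sum_congr rfl fun a _ => ?_
          conv_lhs => enter [2, j]; rw [sum_rot]
          rw [Finset.sum_comm]
          refine Finset.sum_congr rfl fun j' _ => ?_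
          rw [Finset.sum_comm]
          refine Finset.sum_congr rfl fun C' _ => Finset.sum_congr rfl fun j _ =>
            Finset.sum_congr rfl fun a' _ => ?_
          simp only [g2, Matrix.smul_apply, smul_eq_mul]
          field_simp
      _ = _ := by
          rw [m2_pair]
          refine Finset.sum_congr rfl fun r _ => Finset.sum_congr rfl fun k _ =>
            Finset.sum_congr rfl fun l _ => ?_
          by_cases hkl : k = l
          · simp [hkl]
          · rw [if_pos hkl, if_pos hkl]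
            exact sum_m2_sq r hkl φ
  have e23 : D.centre * (∑ C, ∑ a, ∑ j, ∑ C', ∑ a', ∑ j', φ C a j * φ C' a' j' *
        ((if j = j' then D.g1 (C, a) (C', a') else 0) + D.g2 (C, a, j') (C', j, a'))) =
      ∑ r, ∑ k, ∑ l, ∑ x, B r k x * B r l x := by
    simp only [mul_add, Finset.sum_add_distrib, e2, e3]
    rw [← Finset.sum_add_distrib]
    refine Finset.sum_congr rfl fun r _ => ?_
    rw [← Finset.sum_add_distrib]
    refine Finset.sum_congr rfl fun k _ => ?_
    rw [← Finset.add_sum_erase _ _ (mem_univ k), ← Finset.add_sum_erase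
      (f := fun l => ∑ x, B r k x * B r l x) _ (mem_univ k), if_neg (not_not.2 rfl), zero_add]
    exact congrArg _ (Finset.sum_congr rfl fun l hl => if_pos (Finset.ne_of_mem_erase hl).symm)
  rw [mul_add, mul_add, e0, mul_left_comm, e1, e23, Finset.mul_sum, ← Finset.sum_add_distrib,
    ← Finset.sum_add_distrib]
  refine Finset.sum_nonneg fun r _ => le_of_le_of_eq
    (Finset.sum_nonneg (s := univ) fun x _ => mul_self_nonneg (A r x + ∑ k, B r k x)) ?_
  rw [sum_rot (fun k l x => B r k x * B r l x), Finset.sum_comm (f := fun k x => B r k x * A r x),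
    Finset.mul_sum, ← Finset.sum_add_distrib, ← Finset.sum_add_distrib]
  refine Finset.sum_congr rfl fun x _ => ?_
  rw [← Finset.sum_mul, ← Finset.sum_mul_sum]
  ring

lemma energy_eq (hQ : 2 ≤ Q) (hs : D.m1.IsSymm) : energy Q D.g1 D.g2 = D.lam := by
  have hc := D.centre_pos hQ
  have e1 : (Kmat Q * D.g1).trace = D.centre⁻¹ * ∑ r, ∑ k, ∑ C, ∑ x : Fin n → UI Q,
      ∑ j : CI Q × UI Q, D.v r C x * Kmat Q (C, x k) j * D.v r j.1 (update x k j.2) := by
    calc (Kmat Q * D.g1).trace = D.centre⁻¹ * ∑ i, ∑ j, Kmat Q i j * D.m1 i j := by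
          simp only [Matrix.trace, Matrix.diag, Matrix.mul_apply, g1, Matrix.smul_apply,
            smul_eq_mul, Finset.mul_sum]
          refine Finset.sum_congr rfl fun i _ => Finset.sum_congr rfl fun j _ => ?_
          rw [hs.apply i j]
          ring
      _ = _ := by
          rw [m1_pair D (fun i j => Kmat Q i j)]
          refine congrArg _ (Finset.sum_congr rfl fun r _ => Finset.sum_congr rfl fun k _ => ?_)
          rw [Finset.sum_comm]
          exact Finset.sum_congr rfl fun C _ => Finset.sum_congr rfl fun x _ =>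
            Finset.sum_congr rfl fun j _ => by ring
  have e2 : (∑ C, ∑ a, ∑ b, ∑ c, ∑ d, Pr Q a b c d * D.g2 (C, a, b) (C, c, d)) =
      D.centre⁻¹ * ∑ r, 2 * ∑ k : Fin n, ∑ l : Fin n, if k < l then
        ∑ C, ∑ x : Fin n → UI Q, ∑ c, ∑ d, D.v r C x * Pr Q (x k) (x l) c d *
          D.v r C (update (update x k c) l d) else 0 := by
    calc (∑ C, ∑ a, ∑ b, ∑ c, ∑ d, Pr Q a b c d * D.g2 (C, a, b) (C, c, d))
        = D.centre⁻¹ * ∑ i, ∑ j,
            (if i.1 = j.1 then Pr Q i.2.1 i.2.2 j.2.1 j.2.2 else 0) * D.m2 i j := by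
          simp [Fintype.sum_prod_type, g2, Finset.mul_sum, mul_left_comm]
      _ = _ := by
          rw [m2_pair]
          refine congrArg _ (Finset.sum_congr rfl fun r _ => ?_)
          have e : ∀ k l : Fin n, (∑ x : Fin n → UI Q, ∑ C, ∑ j : CI Q × UI Q × UI Q,
              (if C = j.1 then Pr Q (x k) (x l) j.2.1 j.2.2 else 0) *
                (D.v r C x * D.v r j.1 (update (update x k j.2.1) l j.2.2))) =
              ∑ C, ∑ x : Fin n → UI Q, ∑ c, ∑ d, D.v r C x * Pr Q (x k) (x l) c d *
                D.v r C (update (update x k c) l d) := by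
            intro k l
            rw [Finset.sum_comm]
            refine Finset.sum_congr rfl fun C _ => Finset.sum_congr rfl fun x _ => ?_
            simp only [Fintype.sum_prod_type, ite_mul, zero_mul]
            simp [mul_left_comm, mul_assoc]
          simp only [e]
          refine sum_ne_eq_two_mul _ fun k l hkl => ?_
          refine Finset.sum_congr rfl fun C _ => Finset.sum_congr rfl fun x _ => ?_
          rw [Finset.sum_comm]
          refine Finset.sum_congr rfl fun d _ => Finset.sum_congr rfl fun c _ => ?_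
          rw [update_comm hkl, Pr_exchange (x k) (x l) c d]
  have hW : (∑ r, Wform (D.v r)) = (∑ r, ∑ k, ∑ C, ∑ x : Fin n → UI Q, ∑ j : CI Q × UI Q,
        D.v r C x * Kmat Q (C, x k) j * D.v r j.1 (update x k j.2)) +
      ∑ r, ∑ k : Fin n, ∑ l : Fin n, if k < l then
        ∑ C, ∑ x : Fin n → UI Q, ∑ c, ∑ d, D.v r C x * Pr Q (x k) (x l) c d *
          D.v r C (update (update x k c) l d) else 0 := by
    rw [← Finset.sum_add_distrib]
    rfl
  rw [energy, e1, e2, ← Finset.mul_sum, mul_div_assoc, mul_div_cancel_left₀ _ two_ne_zero,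
    ← mul_add, ← hW, D.en]
  have h2 : (0 : ℝ) < 2 * Q - 1 := by
    have : (2 : ℝ) ≤ Q := by exact_mod_cast hQ
    linarith
  have hd : (0 : ℝ) < D.d := by exact_mod_cast D.d_pos
  simp only [centre]
  field_simp

end Data

end

end Vale.Agent.P359.Gap
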